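import Crest.Agent.R251.HAlg

/-! # Row 251: auxiliary lemmas for `Cls` (signs of relators, the automorphism `u ↦ u σ'`) -/

set_option autoImplicit false

open Matrix Quaternion

namespace Crest.Agent.R251

open Crest.Agent.Lib.GR

theorem clb_ev_map {α β : Type} (y : β → ℍ[ℝ]) (e : α → β) (w : FreeGroup α) :
    ev y (FreeGroup.map e w) = ev (fun a => y (e a)) w := by
  have : (FreeGroup.lift fun b => un (y b)).comp (FreeGroup.map e) =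
      FreeGroup.lift fun a => un (y (e a)) := by
    ext1 a
    simp
  rw [ev, ev, ← this]
  rfl

/-- words with the same central value at two tuples -/
def clbPM {α : Type} (y y' : α → ℍ[ℝ]) : Subgroup (FreeGroup α) where
  carrier := {n | (ev y n = 1 ∧ ev y' n = 1) ∨ (ev y n = -1 ∧ ev y' n = -1)}
  one_mem' := .inl ⟨ev_one _, ev_one _⟩
  mul_mem' := by
    rintro a b (⟨h1, h2⟩ | ⟨h1, h2⟩) (⟨h3, h4⟩ | ⟨h3, h4⟩) <;> simp [ev_mul, h1, h2, h3, h4]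
  inv_mem' := by
    rintro a (⟨h1, h2⟩ | ⟨h1, h2⟩) <;> simp [ev_inv, h1, h2]

instance {α : Type} (y y' : α → ℍ[ℝ]) : (clbPM y y').Normal := ⟨by
  rintro n (⟨h1, h2⟩ | ⟨h1, h2⟩) f
  · exact .inl (by simp [ev_mul, ev_inv, h1, h2, ev_ne_zero])
  · exact .inr (by simp [ev_mul, ev_inv, h1, h2, ev_ne_zero])⟩

theorem clb_closure {α R : Type} {y y' : α → ℍ[ℝ]} {rl : R → FreeGroup α}
    (h : ∀ r, rl r ∈ clbPM y y') {n : FreeGroup α} (hn : n ∈ Subgroup.normalClosure (Set.range rl)) :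
    n ∈ clbPM y y' :=
  Subgroup.normalClosure_le_normal (by rintro _ ⟨r, rfl⟩; exact h r) hn

theorem clb_ne : (-1 : ℍ[ℝ]) ≠ 1 := fun h => by
  have := congrArg QuaternionAlgebra.re h
  norm_num at this

/-- the sign of a word in the relation subgroup -/
theorem clb_sign {S R Γ : Type} [DecidableEq S] [Group Γ] [Fintype R] [DecidableEq R] (π : S → Γ)
    (hs : Function.Surjective (FreeGroup.lift π)) (rl : R → FreeGroup S)
    (hk : (FreeGroup.lift π).ker = Subgroup.normalClosure (Set.range rl)) {y : S → ℍ[ℝ]} (r₀ : R)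
    (h0 : ev y (rl r₀) = -1) (h1 : ∀ r, r ≠ r₀ → ev y (rl r) = 1) (n : FreeGroup S)
    (hn : FreeGroup.lift π n = 1) (x : R → ZG Γ)
    (hx : fox π n = x ᵥ* (Matrix.of fun r => fox π (rl r))) :
    (Even (eps Γ (x r₀)) → ev y n = 1) ∧ (Odd (eps Γ (x r₀)) → ev y n = -1) := by
  classical
  have hpm : ∀ n, FreeGroup.lift π n = 1 → ev y n = 1 ∨ ev y n = -1 := fun n hn =>
    (clb_closure (y := y) (y' := y) (fun r => by
      by_cases e : r = r₀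
      · exact .inr ⟨e ▸ h0, e ▸ h0⟩
      · exact .inl ⟨h1 r e, h1 r e⟩) (hk.le hn)).imp And.left And.left
  have key := char_eq_prod π hs rl
    (fun r => hk.ge (Subgroup.subset_normalClosure ⟨r, rfl⟩))
    (fun n => if ev y n = 1 then (1 : ℤˣ) else -1)
    (fun n n' hn hn' => by
      rcases hpm n hn with a | a <;> rcases hpm n' hn' with b | b <;> simp [ev_mul, a, b, clb_ne])
    (fun f n hn => by rcases hpm n hn with a | a <;> simp [ev_mul, ev_inv, a, ev_ne_zero])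
    n hn x hx
  rw [Finset.prod_eq_single r₀ (fun r _ e => by simp [h1 r e]) (by simp), h0, if_neg clb_ne] at key
  refine ⟨fun he => by_contra fun e => ?_, fun ho => (hpm n hn).resolve_left fun e => ?_⟩
  · rw [he.neg_one_zpow, if_neg e] at key
    exact absurd key (by decide)
  · rw [ho.neg_one_zpow, if_pos e] at key
    exact absurd key (by decide)

/-- `σ'` inverts `a` -/
theorem clb_grp {H : Type} [Group H] {t u s r z b : H} (hz : ∀ g, g * z * g⁻¹ = z) (hz2 : z * z = 1)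
    (h1 : r ^ 30 = z) (h2 : t * s * t⁻¹ * (r ^ 15)⁻¹ = 1)
    (h3 : u * ((r ^ 7)⁻¹ * s⁻¹ * r ^ 8) * u⁻¹ * (r ^ 15)⁻¹ = 1)
    (h5 : r ^ 6 * (u⁻¹ * b * u) * (r ^ 6)⁻¹ * (u⁻¹ * b * u)⁻¹ = 1) :
    r ^ 6 * ((u * ((r ^ 7)⁻¹ * s⁻¹ * r ^ 8))⁻¹ * b * (u * ((r ^ 7)⁻¹ * s⁻¹ * r ^ 8))) * (r ^ 6)⁻¹ *
      ((u * ((r ^ 7)⁻¹ * s⁻¹ * r ^ 8))⁻¹ * b * (u * ((r ^ 7)⁻¹ * s⁻¹ * r ^ 8)))⁻¹ = 1 := by
  have hc : r ^ 15 * r ^ 15 = z := by rw [← pow_add, h1]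
  have e1 : s * s = z := by
    rw [← hz t⁻¹, ← hc, ← mul_inv_eq_one.1 h2]
    group
  have e2 : s⁻¹ * r * (s⁻¹ * r) = z := by
    rw [← hz (r ^ 7 * u⁻¹), ← hc, ← mul_inv_eq_one.1 h3]
    group
  have e3 : s⁻¹ * r = r⁻¹ * s⁻¹ := by
    calc s⁻¹ * r = r⁻¹ * (r * (s⁻¹ * r * (s⁻¹ * r)) * r⁻¹ * (s * s)) * s⁻¹ := by group
      _ = r⁻¹ * (r * z * r⁻¹ * z) * s⁻¹ := by rw [e1, e2]
      _ = r⁻¹ * s⁻¹ := by rw [hz, hz2, mul_one]
  have e4 : (r ^ 7)⁻¹ * s⁻¹ * r ^ 8 * r ^ 6 = (r ^ 6)⁻¹ * ((r ^ 7)⁻¹ * s⁻¹ * r ^ 8) := by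
    calc (r ^ 7)⁻¹ * s⁻¹ * r ^ 8 * r ^ 6 = (r ^ 7)⁻¹ * (s⁻¹ * r ^ 6) * r ^ 8 := by group
      _ = _ := by rw [refl_pow_aux_pa e3]; group
  generalize (r ^ 7)⁻¹ * s⁻¹ * r ^ 8 = p at e4 ⊢
  generalize r ^ 6 = a at e4 h5 ⊢
  have e5 : a = p⁻¹ * a⁻¹ * p := by rw [mul_assoc, ← e4]; group
  have e6 : a⁻¹ * (u⁻¹ * b * u) * a = u⁻¹ * b * u := by
    conv_lhs => rw [← mul_inv_eq_one.1 h5]
    group
  calc a * ((u * p)⁻¹ * b * (u * p)) * a⁻¹ * ((u * p)⁻¹ * b * (u * p))⁻¹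
      = (p⁻¹ * a⁻¹ * p) * ((u * p)⁻¹ * b * (u * p)) * (p⁻¹ * a⁻¹ * p)⁻¹ *
        ((u * p)⁻¹ * b * (u * p))⁻¹ := by rw [← e5]
    _ = p⁻¹ * (a⁻¹ * (u⁻¹ * b * u) * a) * (u⁻¹ * b * u)⁻¹ * p := by group
    _ = 1 := by rw [e6]; group

theorem IsStd.clb_gsp {θ : G →* Matrix (Fin 3) (Fin 3) ℝ} {j : ℤ} {s₁ s₂ s₃ s₄ : ℝ}
    (h : IsStd θ j s₁ s₂ s₃ s₄) : θ gsp = !![-1, 0, 0; 0, 1, 0; 0, 0, -1] := by
  have h1 : stdT s₁ s₂ * stdT s₂ s₁ = 1 := by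
    rcases h.h₁ with rfl | rfl <;> rcases h.h₂ with rfl | rfl <;> ext i k <;> fin_cases i <;>
      fin_cases k <;> simp [stdT, Matrix.mul_apply, Fin.sum_univ_three]
  have h2 := congrArg θ gt_gs
  rw [map_mul, map_mul, h.t, h.s] at h2
  rw [gsp, map_mul, h.s, ← mul_one (θ gc), ← h1, ← mul_assoc (θ gc), ← h2]
  rcases h.h₁ with rfl | rfl <;> rcases h.h₂ with rfl | rfl <;> ext i k <;> fin_cases i <;>
    fin_cases k <;> simp [stdT, stdS, Matrix.mul_apply, Fin.sum_univ_three]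

end Crest.Agent.R251
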