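import Crest.Agent.R251.HAlg
import Crest.Agent.R251.Tau
import Crest.Agent.R251.ClsAuxB
import Crest.Agent.R251.ClsA

/-!
# Row 251: twisted `SU(2)` solutions of the standard presentation and of a normalised realisation

Recipes.  `XSol.normal`: `ρ̃^30 = -1`, `σ̃² = t̃⁻¹ ρ̃^30 t̃ = -1`, `(σ̃⁻¹ ρ̃)² = -1` (conjugate of `ev wsp`), a unit quaternion with square `-1`
is pure, so `σ̃ ⊥ im ρ̃`, `ρ̃ ≠ ±1`; conjugate `(σ̃, ρ̃)` to `(i, cos x + k sin x)` (`exists_slicePair`, then the rotation `j ↦ k` about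
`i`), `(cos x + k sin x)^30 = cos 30x + k sin 30x = -1` gives `x = π j / 30`, `j` odd, and `Ad = rotz (2x)`.
`XSol.isStd`: with `σ̃ = ±i`, `ρ̃^15 = ±k`: `t̃ i t̃⁻¹ = ±k`; `t̃ b̃ t̃⁻¹` commutes with `i` and `b̃ = cos + k sin`, `sin ≠ 0`, so
`t̃ k t̃⁻¹ = ±i`; `ev wsp = ±j`, `ũ j ũ⁻¹ = ±k`, `bZ` commutes with `ã`, so `ũ⁻¹ i ũ = ±k`; the remaining columns from
`det Ad = 1` and orthogonality (or `j = k i`).
`exists_xSol`: `σ̃ = i`, `ρ̃ = cos (π/30) + k sin (π/30)` (`ρ̃^15 = k`, `ev wsp = j`), `t̃ = (i + k)/√2`, `ũ = (1 + i + j + k)/2`.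
`ySol_iff`: `char_eq_prod` for `η n = ` the sign of `ev y n` (values in `ℤˣ` or in the commutative subgroup `{1, -1}`), once with the
relators `relX` (matrix `ψ`), once with `relY` (rows of `w'`); compare with a solution from `exists_xSol`.
-/

set_option autoImplicit false

open Matrix Quaternion

namespace Crest.Agent.R251

open Crest.Agent.Lib.GR

/-- twisted solutions of the standard presentation -/
structure XSol (x : Gen → ℍ[ℝ]) : Prop where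
  unit : UnitT x
  r : ev x (rel .r) = -1
  t : ev x (rel .t) = 1
  u : ev x (rel .u) = 1
  B : ev x (rel .B) = 1
  Z : ev x (rel .Z) = 1

theorem XSol.cj {x : Gen → ℍ[ℝ]} (h : XSol x) {q : ℍ[ℝ]} (hq : q ≠ 0) : XSol (cj q x) := by
  refine ⟨h.unit.cj hq, ?_, ?_, ?_, ?_, ?_⟩ <;> rw [ev_cj h.unit hq]
  · rw [h.r, mul_neg_one, neg_mul, mul_inv_cancel₀ hq]
  · rw [h.t, mul_one, mul_inv_cancel₀ hq]
  · rw [h.u, mul_one, mul_inv_cancel₀ hq]
  · rw [h.B, mul_one, mul_inv_cancel₀ hq]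
  · rw [h.Z, mul_one, mul_inv_cancel₀ hq]

theorem XSol.exists_hom {x : Gen → ℍ[ℝ]} (h : XSol x) :
    ∃ θ : G →* Matrix (Fin 3) (Fin 3) ℝ, ∀ g, θ (gen g) = Ad (x g) := by
  have e : FreeGroup.lift (fun g => (AdW x).toHomUnits (FreeGroup.of g)) = (AdW x).toHomUnits := by
    ext1 g
    rw [FreeGroup.lift_apply_of]
  have hrel : ∀ w ∈ Set.range rel,
      FreeGroup.lift (fun g => (AdW x).toHomUnits (FreeGroup.of g)) w = 1 := by
    rintro _ ⟨i, rfl⟩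
    rw [e]
    refine Units.ext ?_
    rw [MonoidHom.coe_toHomUnits, AdW_apply, Units.val_one]
    cases i
    · rw [h.r, Ad_neg, Ad_one]
    · rw [h.t, Ad_one]
    · rw [h.u, Ad_one]
    · rw [h.B, Ad_one]
    · rw [h.Z, Ad_one]
  refine ⟨(Units.coeHom _).comp (PresentedGroup.toGroup hrel), fun g => ?_⟩
  rw [MonoidHom.comp_apply, gen, PresentedGroup.toGroup.of hrel, Units.coeHom_apply,
    MonoidHom.coe_toHomUnits, AdW_apply, ev_of (qu_ne (h.unit g))]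

/-- the adjoint representation of a solution -/
noncomputable def XSol.th {x : Gen → ℍ[ℝ]} (h : XSol x) : G →* Matrix (Fin 3) (Fin 3) ℝ :=
  h.exists_hom.choose

theorem XSol.th_gen {x : Gen → ℍ[ℝ]} (h : XSol x) (g : Gen) : h.th (gen g) = Ad (x g) :=
  h.exists_hom.choose_spec g

theorem XSol.th_lift {x : Gen → ℍ[ℝ]} (h : XSol x) (w : FreeGroup Gen) :
    h.th (FreeGroup.lift gen w) = Ad (ev x w) := by
  have e : h.th.comp (FreeGroup.lift gen) = AdW x := by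
    ext1 g
    rw [MonoidHom.comp_apply, FreeGroup.lift_apply_of, h.th_gen, AdW_apply, ev_of (qu_ne (h.unit g))]
  exact DFunLike.congr_fun e w

theorem XSol.th_cj {x : Gen → ℍ[ℝ]} (h : XSol x) {q : ℍ[ℝ]} (hq : q ≠ 0) (g : G) :
    (h.cj hq).th g = Ad q * h.th g * Ad q⁻¹ := by
  obtain ⟨w, rfl⟩ := lift_gen_surj g
  rw [XSol.th_lift, XSol.th_lift, ev_cj h.unit hq, Ad_mul, Ad_mul]

/-- an invariant function that vanishes exactly when `a` or `b` is `± 1` -/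
noncomputable def hv (ρ : ℍ[ℝ]) : ℝ := (1 - (ρ ^ 6).re ^ 2) * (1 - (ρ ^ 10).re ^ 2)

theorem re_conj_pow (ρ : ℍ[ℝ]) {q : ℍ[ℝ]} (hq : q ≠ 0) (n : ℕ) : ((q * ρ * q⁻¹) ^ n).re = (ρ ^ n).re := by
  have h1 := GroupWithZero.conj_pow₀ (s := n) (d := ρ) (inv_ne_zero hq)
  rw [inv_inv] at h1
  rw [h1, qu_inv]
  generalize ρ ^ n = y
  have hn : normSq q ≠ 0 := normSq_ne_zero.2 hq
  have h2 : (q * y * star q).re = normSq q * y.re := by
    rw [normSq_def']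
    simp
    ring
  rw [mul_smul_comm, Quaternion.re_smul, h2, smul_eq_mul, inv_mul_cancel_left₀ hn]

theorem hv_conj (ρ : ℍ[ℝ]) {q : ℍ[ℝ]} (hq : q ≠ 0) : hv (q * ρ * q⁻¹) = hv ρ := by
  rw [hv, hv, re_conj_pow ρ hq, re_conj_pow ρ hq]

theorem pow_cos_sin (x : ℝ) (n : ℕ) : (⟨Real.cos x, 0, 0, Real.sin x⟩ : ℍ[ℝ]) ^ n =
    ⟨Real.cos (n * x), 0, 0, Real.sin (n * x)⟩ := by
  induction n with
  | zero => ext <;> simp
  | succ n ih =>
    rw [pow_succ, ih, Nat.cast_succ, add_mul, one_mul, Real.cos_add, Real.sin_add]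
    ext <;> simp
    ring

theorem XSol.normal {x : Gen → ℍ[ℝ]} (h : XSol x) : ∃ (q : ℍ[ℝ]) (j : ℤ), ‖q‖ = 1 ∧ Odd j ∧
    q * x .s * q⁻¹ = ⟨0, 1, 0, 0⟩ ∧
    q * x .r * q⁻¹ = ⟨Real.cos (ang j / 2), 0, 0, Real.sin (ang j / 2)⟩ := by
  have hr : x .r ^ 15 ≠ 0 := pow_ne_zero _ (qu_ne (h.unit _))
  obtain ⟨q, m, hq, h1, h2⟩ := cla_normal (qu_ne (h.unit .t)) (qu_ne (h.unit .u)) (h.unit .s) (h.unit .r)
    ((cla_ev_r h.unit).symm.trans h.r) ((mul_inv_eq_one₀ hr).1 ((cla_ev_t h.unit).symm.trans h.t))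
    ((mul_inv_eq_one₀ hr).1 ((cla_ev_u h.unit).symm.trans h.u))
  refine ⟨q, 2 * m + 1, hq, odd_two_mul_add_one m, h1, ?_⟩
  have e : ang (2 * m + 1) / 2 = (2 * m + 1) * Real.pi / 30 := by
    rw [ang]
    push_cast
    ring
  rw [h2, e]
  rfl

theorem hv_normal (j : ℤ) : hv ⟨Real.cos (ang j / 2), 0, 0, Real.sin (ang j / 2)⟩ =
    Real.sin (3 * ang j) ^ 2 * Real.sin (5 * ang j) ^ 2 := by
  have h6 := congrArg QuaternionAlgebra.re (pow_cos_sin (ang j / 2) 6)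
  have h10 := congrArg QuaternionAlgebra.re (pow_cos_sin (ang j / 2) 10)
  rw [show ((6 : ℕ) : ℝ) * (ang j / 2) = 3 * ang j by push_cast; ring] at h6
  rw [show ((10 : ℕ) : ℝ) * (ang j / 2) = 5 * ang j by push_cast; ring] at h10
  rw [Real.sin_sq, Real.sin_sq]
  exact congrArg₂ (fun a b : ℝ => (1 - a ^ 2) * (1 - b ^ 2)) h6 h10

theorem hv_eq_zero_or {j : ℤ} (hj : Odd j) :
    ((3 ∣ j ∨ 5 ∣ j) ∧ Real.sin (3 * ang j) ^ 2 * Real.sin (5 * ang j) ^ 2 = 0) ∨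
      (IsCoprime j 30 ∧ 1 / 10 < Real.sin (3 * ang j) ^ 2 * Real.sin (5 * ang j) ^ 2) := by
  by_cases h : 3 ∣ j ∨ 5 ∣ j
  · refine .inl ⟨h, ?_⟩
    rw [sin_mul_ang 3 j (x := 3 * ang j) (by push_cast; ring),
      sin_mul_ang 5 j (x := 5 * ang j) (by push_cast; ring)]
    rcases h with h | h
    · rw [sn_eq_zero (m := 5 * j) (by omega)]
      ring
    · rw [sn_eq_zero (m := 3 * j) (by omega)]
      ring
  · have hc : IsCoprime j 30 := coprime_of_emod (by have := Int.odd_iff.1 hj; omega) (by omega) (by omega)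
    refine .inr ⟨hc, ?_⟩
    have h1 := cs_six_lt hc
    have h2 := cs_ten_neg hc
    rw [← cos_mul_ang 6 j (x := 2 * (3 * ang j)) (by push_cast; ring), Real.cos_two_mul,
      Real.cos_sq'] at h1
    rw [← cos_mul_ang 10 j (x := 2 * (5 * ang j)) (by push_cast; ring), Real.cos_two_mul,
      Real.cos_sq'] at h2
    nlinarith

theorem Ad_normal_s : Ad ⟨0, 1, 0, 0⟩ = stdS := by
  rw [qu_Ad, normSq_def']
  simp [quM, stdS]

theorem Ad_normal_r (x : ℝ) : Ad ⟨Real.cos (x / 2), 0, 0, Real.sin (x / 2)⟩ = rotz x := by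
  have h1 : Real.cos x = Real.cos (x / 2) ^ 2 - Real.sin (x / 2) ^ 2 := by
    rw [← Real.cos_two_mul', mul_div_cancel₀ _ two_ne_zero]
  have h2 : Real.sin x = 2 * Real.sin (x / 2) * Real.cos (x / 2) := by
    rw [← Real.sin_two_mul, mul_div_cancel₀ _ two_ne_zero]
  rw [qu_Ad, normSq_def', rotz, h1, h2]
  ext i j
  fin_cases i <;> fin_cases j <;> simp [quM] <;> ring

/-- a solution in normal form with `j` prime to `30` is standard -/
theorem XSol.isStd {x : Gen → ℍ[ℝ]} (h : XSol x) {j : ℤ} (hj : IsCoprime j 30) (hs : x .s = ⟨0, 1, 0, 0⟩)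
    (hr : x .r = ⟨Real.cos (ang j / 2), 0, 0, Real.sin (ang j / 2)⟩) :
    ∃ s₁ s₂ s₃ s₄, IsStd h.th j s₁ s₂ s₃ s₄ := by
  have hr' : x .r = claE (ang j / 2) := hr
  have hs' : x .s = claQ 0 1 0 0 := hs
  have h0 := fun g => qu_ne (h.unit g)
  have hr15 : x .r ^ 15 ≠ 0 := pow_ne_zero _ (h0 _)
  have hb : x .t * x .r ^ 10 * (x .t)⁻¹ ≠ 0 :=
    mul_ne_zero (mul_ne_zero (h0 _) (pow_ne_zero _ (h0 _))) (inv_ne_zero (h0 _))
  have h2 := (mul_inv_eq_one₀ hr15).1 ((cla_ev_t h.unit).symm.trans h.t)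
  have h3 := (mul_inv_eq_one₀ hr15).1 ((cla_ev_u h.unit).symm.trans h.u)
  have h4 := (cla_comm_iff (h0 _) hb).1 ((cla_ev_B h.unit).symm.trans h.B)
  have h5 := (cla_comm_iff (pow_ne_zero _ (h0 _)) (mul_ne_zero (mul_ne_zero (inv_ne_zero (h0 _)) hb)
    (h0 _))).1 ((cla_ev_Z h.unit).symm.trans h.Z)
  rw [hr'] at h2 h3 h4 h5
  rw [hs'] at h2 h3 h4
  have hsin : ∀ (c : ℝ) (n : ℤ), n ∣ 30 → 1 < n → c * n = 30 → Real.sin (c * (ang j / 2)) ≠ 0 := by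
    intro c n hn h1 hc h'
    obtain ⟨k, hk⟩ := Real.sin_eq_zero_iff.1 h'
    have e : (j : ℝ) = n * k := by
      refine mul_left_cancel₀ Real.pi_ne_zero ?_
      rw [ang] at hk
      linear_combination (-(n : ℝ)) * hk - (Real.pi * j / 30) * hc
    have := hj.isUnit_of_dvd' (⟨k, by exact_mod_cast e⟩ : n ∣ j) hn
    rw [Int.isUnit_iff] at this
    omega
  obtain ⟨s₁, s₂, s₄, a1, a2, a4, et, eu⟩ := cla_std (h0 .t) (h0 .u)
    (hsin 10 3 (by norm_num) (by norm_num) (by norm_num))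
    (hsin 6 5 (by norm_num) (by norm_num) (by norm_num)) h2 h3 h4 h5
  refine ⟨s₁, s₂, 1, s₄, hj, a1, a2, .inl rfl, a4, (h.th_gen .t).trans et, (h.th_gen .u).trans eu,
    (h.th_gen .s).trans ?_, (h.th_gen .r).trans ?_⟩
  · rw [hs]
    exact Ad_normal_s
  · rw [hr]
    exact Ad_normal_r _

theorem IsStd.not_comm {θ : G →* Matrix (Fin 3) (Fin 3) ℝ} {j : ℤ} {s₁ s₂ s₃ s₄ : ℝ}
    (h : IsStd θ j s₁ s₂ s₃ s₄) : θ gt * θ gu ≠ θ gu * θ gt := by
  intro hc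
  rw [h.t, h.u] at hc
  have h1 := congrFun (congrFun hc 0) 1
  simp [stdT, stdU, Matrix.mul_apply, Fin.sum_univ_three] at h1
  rcases h.h₂ with h2 | h2 <;> rcases h.h₃ with h3 | h3 <;> simp [h2, h3] at h1

/-- the type of a rigid solution is read off from `a` -/
theorem re_pow_six {j : ℤ} (hj : IsCoprime j 30) :
    1 / 2 < ((⟨Real.cos (ang j / 2), 0, 0, Real.sin (ang j / 2)⟩ : ℍ[ℝ]) ^ 6).re ^ 2 ↔
      (j % 5 = 1 ∨ j % 5 = 4) := by
  rw [pow_cos_sin, ← cs_six_pos_iff hj,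
    ← cos_mul_ang 6 j (x := 2 * (((6 : ℕ) : ℝ) * (ang j / 2))) (by push_cast; ring), Real.cos_two_mul]
  constructor <;> intro h <;> linarith

theorem exists_xSol : ∃ x : Gen → ℍ[ℝ], XSol x ∧ x .s = ⟨0, 1, 0, 0⟩ ∧
    x .r = ⟨Real.cos (ang 1 / 2), 0, 0, Real.sin (ang 1 / 2)⟩ := by
  obtain ⟨t, u, nt, nu, h1, h2, h3, h4⟩ := cla_exists
  let x : Gen → ℍ[ℝ] := fun g => match g with
    | .t => t | .u => u | .s => claQ 0 1 0 0 | .r => claE (ang 1 / 2)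
  have nI : ‖claQ 0 1 0 0‖ = 1 := cla_norm_one (by simp [claQ])
  have hx : UnitT x := fun g => by
    cases g
    exacts [nt, nu, nI, claE_norm _]
  have e15 : (15 : ℝ) * (ang 1 / 2) = Real.pi / 2 := by
    rw [ang]
    push_cast
    ring
  have r15 : claE (ang 1 / 2) ^ 15 = claQ 0 0 0 1 := by
    rw [claE_pow]
    push_cast
    rw [e15]
    ext <;> simp [claE, claQ]
  have k0 : claQ 0 0 0 1 ≠ 0 := qu_ne (cla_norm_one (by simp [claQ]))
  have e0 : ∀ y, claE y ≠ 0 := fun y => qu_ne (claE_norm y)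
  refine ⟨x, ⟨hx, ?_, ?_, ?_, ?_, ?_⟩, rfl, rfl⟩
  · rw [cla_ev_r hx]
    change claE (ang 1 / 2) ^ (15 + 15) = -1
    rw [pow_add, r15]
    ext <;> simp [claQ]
  · rw [cla_ev_t hx]
    change t * claQ 0 1 0 0 * t⁻¹ * (claE (ang 1 / 2) ^ 15)⁻¹ = 1
    rw [h1, r15, mul_inv_cancel₀ k0]
  · rw [cla_ev_u hx]
    change u * ((claE (ang 1 / 2) ^ 7)⁻¹ * (claQ 0 1 0 0)⁻¹ * claE (ang 1 / 2) ^ 8) * u⁻¹ *
      (claE (ang 1 / 2) ^ 15)⁻¹ = 1
    rw [cla_wsp, e15, Real.cos_pi_div_two, Real.sin_pi_div_two, neg_zero, h2, r15, mul_inv_cancel₀ k0]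
  · rw [cla_ev_B hx]
    change claQ 0 1 0 0 * (t * claE (ang 1 / 2) ^ 10 * t⁻¹) * (claQ 0 1 0 0)⁻¹ *
      (t * claE (ang 1 / 2) ^ 10 * t⁻¹)⁻¹ = 1
    rw [claE_pow, cla_comm_iff (qu_ne nI) (mul_ne_zero (mul_ne_zero (qu_ne nt) (e0 _))
      (inv_ne_zero (qu_ne nt))), h3]
    ext <;> simp [claQ]
  · rw [cla_ev_Z hx]
    change claE (ang 1 / 2) ^ 6 * (u⁻¹ * (t * claE (ang 1 / 2) ^ 10 * t⁻¹) * u) *
      (claE (ang 1 / 2) ^ 6)⁻¹ * (u⁻¹ * (t * claE (ang 1 / 2) ^ 10 * t⁻¹) * u)⁻¹ = 1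
    rw [claE_pow, claE_pow, h3, h4, cla_comm_iff (e0 _) (e0 _), claE_mul, claE_mul, add_comm]

/-- the automorphism `u ↦ u σ'` -/
noncomputable def alZ (x : Gen → ℍ[ℝ]) : Gen → ℍ[ℝ]
  | .u => x .u * ev x wsp
  | g => x g

theorem XSol.alZ {x : Gen → ℍ[ℝ]} (h : XSol x) : XSol (alZ x) := by
  have hu : un (R251.alZ x .u) =
      un (x .u) * ((un (x .r) ^ 7)⁻¹ * (un (x .s))⁻¹ * un (x .r) ^ 8) := by
    refine Units.ext ((un_val (mul_ne_zero (qu_ne (h.unit _)) (ev_ne_zero _ _))).trans ?_)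
    rw [Units.val_mul, un_val (qu_ne (h.unit .u))]
    simp only [ev, wsp, wr, ws, map_mul, map_inv, map_pow, FreeGroup.lift_apply_of]
  have e : ∀ g, g ≠ .u → R251.alZ x g = x g := fun g hg => by cases g <;> first | rfl | exact absurd rfl hg
  have h1 : FreeGroup.lift (fun a => un (x a)) (rel .r) = -1 := Units.ext h.r
  have h2 : FreeGroup.lift (fun a => un (x a)) (rel .t) = 1 := Units.ext h.t
  have h3 : FreeGroup.lift (fun a => un (x a)) (rel .u) = 1 := Units.ext h.u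
  have h4 : FreeGroup.lift (fun a => un (x a)) (rel .B) = 1 := Units.ext h.B
  have h5 : FreeGroup.lift (fun a => un (x a)) (rel .Z) = 1 := Units.ext h.Z
  have k : ∀ w (c : ℍ[ℝ]ˣ), FreeGroup.lift (fun a => un (R251.alZ x a)) w = c →
      ev (R251.alZ x) w = c := fun _ _ => congrArg Units.val
  refine ⟨fun g => ?_, k _ (-1) ?_, k _ 1 ?_, k _ 1 ?_, k _ 1 ?_, k _ 1 ?_⟩
  · cases g
    exacts [h.unit _, by rw [R251.alZ, norm_mul, h.unit, norm_ev_of_unitT h.unit, mul_one], h.unit _,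
      h.unit _]
  all_goals simp only [rel, wsp, wbZ, wbB, wt, wu, ws, wr, map_mul, map_inv, map_pow,
    FreeGroup.lift_apply_of, hu, e .t (by decide), e .s (by decide), e .r (by decide)] at h1 h2 h3 h4 h5 ⊢
  · exact h1
  · exact h2
  · rw [← h3]
    group
  · exact h4
  · exact clb_grp (by simp) (by simp) h1 h2 h3 h5

theorem alZ_cj {x : Gen → ℍ[ℝ]} (h : UnitT x) {q : ℍ[ℝ]} (hq : q ≠ 0) : alZ (cj q x) = cj q (alZ x) := by
  funext g
  cases g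
  any_goals rfl
  simp only [alZ, ev_cj h hq, cj, mul_assoc, inv_mul_cancel_left₀ hq]

theorem alZ_inj {x x' : Gen → ℍ[ℝ]} (h : alZ x = alZ x') : x = x' := by
  have hs : x .s = x' .s := congrFun h .s
  have hr : x .r = x' .r := congrFun h .r
  have hu : x .u * ev x wsp = x' .u * ev x' wsp := congrFun h .u
  have e : ev x wsp = ev x' wsp := by
    simp only [ev, wsp, wr, ws, map_mul, map_inv, map_pow, FreeGroup.lift_apply_of, hs, hr]
  funext g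
  cases g
  exacts [congrFun h .t, mul_right_cancel₀ (ev_ne_zero _ _) (e ▸ hu), hs, hr]

theorem XSol.isStd_alZ {x : Gen → ℍ[ℝ]} (h : XSol x) {j : ℤ} {s₁ s₂ s₃ s₄ : ℝ}
    (hs : IsStd h.th j s₁ s₂ s₃ s₄) : IsStd h.alZ.th j s₁ s₂ s₃ (-s₄) := by
  refine ⟨hs.hj, hs.h₁, hs.h₂, hs.h₃, by rcases hs.h₄ with e | e <;> simp [e],
    ((h.alZ.th_gen .t).trans (h.th_gen .t).symm).trans hs.t, (h.alZ.th_gen .u).trans ?_,
    ((h.alZ.th_gen .s).trans (h.th_gen .s).symm).trans hs.s,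
    ((h.alZ.th_gen .r).trans (h.th_gen .r).symm).trans hs.r⟩
  rw [R251.alZ, Ad_mul, ← h.th_lift, lift_wsp, hs.clb_gsp, ← h.th_gen, ← gu, hs.u]
  ext i k
  fin_cases i <;> fin_cases k <;> simp [stdU, Matrix.mul_apply, Fin.sum_univ_three]

variable {s : Matrix (Fin 2) Rel (ZG G)} {κ : Type} [Fintype κ] [DecidableEq κ]

/-- twisted solutions of a normalised realisation -/
structure YSol (H : HAlg s κ) (y : Gn (Fin 2 ⊕ κ) → ℍ[ℝ]) : Prop where
  unit : UnitT y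
  none : ev y (H.relY none) = -1
  some : ∀ a, ev y (H.relY (some a)) = 1

/-- the tuple determined by its values on `t, u, σ, ρ` -/
noncomputable def HAlg.ext (H : HAlg s κ) (x : Gen → ℍ[ℝ]) : Gn (Fin 2 ⊕ κ) → ℍ[ℝ] :=
  extG x fun a => ev x (H.W a)

theorem HAlg.ext_cj (H : HAlg s κ) {x : Gen → ℍ[ℝ]} (h : UnitT x) {q : ℍ[ℝ]} (hq : q ≠ 0) :
    H.ext (cj q x) = cj q (H.ext x) := by
  funext g
  rcases g with _ | _ | i | a
  · rfl
  · rfl
  · fin_cases i <;> rfl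
  · exact ev_cj h hq _

theorem HAlg.ev_ext_inl (H : HAlg s κ) (x : Gen → ℍ[ℝ]) (l : Rel) :
    ev (H.ext x) (relX H.W (.inl l)) = ev x (rel l) := by
  simp only [relX, clb_ev_map, HAlg.ext, extG_emb]

theorem HAlg.ev_ext_inr (H : HAlg s κ) (x : Gen → ℍ[ℝ]) (a : κ) :
    ev (H.ext x) (relX H.W (.inr a)) = 1 := by
  have : H.ext x (oth a) = ev x (H.W a) := rfl
  rw [relX, ev_mul, ev_inv, ev_of (this ▸ ev_ne_zero _ _), this, clb_ev_map]
  simp only [HAlg.ext, extG_emb, mul_inv_cancel₀ (ev_ne_zero _ _)]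

theorem HAlg.ySol_ext (H : HAlg s κ) {x : Gen → ℍ[ℝ]} (h : XSol x) : YSol H (H.ext x) := by
  have key := fun j => clb_sign (piY H.W) (piY_surj _) (relX H.W) (ker_piY _) (y := H.ext x) (.inl .r)
    ((H.ev_ext_inl x _).trans h.r) (by
      rintro (l | a) hr
      · rw [H.ev_ext_inl]
        cases l
        exacts [absurd rfl hr, h.t, h.u, h.B, h.Z]
      · exact H.ev_ext_inr x a) (H.relY j) (H.ker_eq.ge (Subgroup.subset_normalClosure ⟨j, rfl⟩))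
    (H.ψ j) (congrFun H.hψ.symm j)
  refine ⟨fun g => ?_, (key none).2 H.odd, fun a => (key (some a)).1 (H.even a)⟩
  rcases g with _ | _ | i | a
  · exact h.unit _
  · exact h.unit _
  · fin_cases i <;> exact h.unit _
  · exact norm_ev_of_unitT h.unit _

theorem YSol.exists_xSol {H : HAlg s κ} {y : Gn (Fin 2 ⊕ κ) → ℍ[ℝ]} (h : YSol H y) :
    ∃ x, XSol x ∧ y = H.ext x := by
  obtain ⟨x₀, h₀, -⟩ := R251.exists_xSol
  have h₁ := H.ySol_ext h₀
  have key : ∀ i, ev y (relX H.W i) = ev (H.ext x₀) (relX H.W i) := fun i => by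
    rcases clb_closure (y := y) (y' := H.ext x₀) (rl := H.relY) (by
      rintro (_ | a)
      exacts [.inr ⟨h.none, h₁.none⟩, .inl ⟨h.some a, h₁.some a⟩])
      (H.ker_eq.le ((ker_piY H.W).ge (Subgroup.subset_normalClosure ⟨i, rfl⟩))) with e | e <;>
      exact e.1.trans e.2.symm
  have e : ∀ l, ev (fun g => y (emb κ g)) (rel l) = ev x₀ (rel l) := fun l =>
    (clb_ev_map y _ _).symm.trans ((key (.inl l)).trans (H.ev_ext_inl x₀ l))
  refine ⟨fun g => y (emb κ g), ⟨fun g => h.unit _, (e _).trans h₀.r, (e _).trans h₀.t,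
    (e _).trans h₀.u, (e _).trans h₀.B, (e _).trans h₀.Z⟩,
    (extG_eta y).symm.trans (congrArg (extG _) (funext fun a => ?_))⟩
  have := (key (.inr a)).trans (H.ev_ext_inr x₀ a)
  rwa [relX, ev_mul, ev_inv, ev_of (qu_ne (h.unit _)), clb_ev_map,
    mul_inv_eq_one₀ (ev_ne_zero _ _)] at this

theorem HAlg.AdW_ext (H : HAlg s κ) {x : Gen → ℍ[ℝ]} (h : XSol x) (w : FreeGroup (Gn (Fin 2 ⊕ κ))) :
    AdW (H.ext x) w = h.th (FreeGroup.lift (piY H.W) w) := by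
  refine DFunLike.congr_fun (FreeGroup.ext_hom (AdW (H.ext x))
    (h.th.comp (FreeGroup.lift (piY H.W))) fun g => ?_) w
  rw [AdW_apply, ev_of (qu_ne ((H.ySol_ext h).unit g)), MonoidHom.comp_apply, FreeGroup.lift_apply_of]
  rcases g with _ | _ | i | a
  · exact (h.th_gen _).symm
  · exact (h.th_gen _).symm
  · fin_cases i <;> exact (h.th_gen _).symm
  · exact (h.th_lift _).symm

end Crest.Agent.R251
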