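import Crest.Agent.R251.Cls
import Crest.Agent.R251.Est

/-!
# Row 251: auxiliary lemmas for `HAlg.exists_pert`
-/

set_option autoImplicit false

open Matrix Quaternion Filter Topology

namespace Crest.Agent.R251

open Crest.Agent.Lib.GR

theorem ddb_of3_smul (c : ℝ) (v : Fin 3 → ℝ) : of3 (c • v) = c • of3 v := by
  ext <;> simp [of3]

theorem ddb_norm_sq (q : ℍ[ℝ]) : ‖q‖ ^ 2 = q.re ^ 2 + im3 q ⬝ᵥ im3 q := by
  rw [sq, ← normSq_eq_norm_mul_self, normSq_def']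
  simp [im3, dotProduct, Fin.sum_univ_three]
  ring

theorem ddb_norm_im (q : ℍ[ℝ]) : ‖of3 (im3 q)‖ ≤ ‖q‖ := by
  refine abs_le_of_sq_le_sq' ?_ (norm_nonneg _) |>.2
  rw [ddb_norm_sq, ddb_norm_sq, im3_of3]
  have : (of3 (im3 q)).re = 0 := rfl
  rw [this]
  nlinarith [sq_nonneg q.re]

theorem ddb_dot_le (v w : Fin 3 → ℝ) : v ⬝ᵥ w ≤ ‖of3 v‖ * ‖of3 w‖ := by
  refine le_trans (le_of_eq ?_) (real_inner_le_norm (of3 v) (of3 w))
  rw [Quaternion.inner_def]
  simp [of3, dotProduct, Fin.sum_univ_three]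

theorem ddb_dot_nonneg (v : Fin 3 → ℝ) : 0 ≤ v ⬝ᵥ v :=
  Finset.sum_nonneg fun i _ => mul_self_nonneg (v i)

theorem ddb_sub_one {q : ℍ[ℝ]} (h : ‖q‖ = 1) (hre : 0 < q.re) :
    ‖q - 1‖ ^ 2 ≤ 2 * (im3 q ⬝ᵥ im3 q) := by
  have h1 := ddb_norm_sq q
  have h2 := ddb_norm_sq (q - 1)
  have h3 : im3 (q - 1) = im3 q := by simp [im3]
  have h4 : (q - 1).re = q.re - 1 := by simp
  have h5 := ddb_dot_nonneg (im3 q)
  rw [h] at h1
  rw [h2, h3, h4]
  have h6 : q.re ≤ 1 := by nlinarith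
  nlinarith

theorem ddb_neg_one {q : ℍ[ℝ]} (h : ‖q‖ = 1) (him : im3 q = 0) (hre : q.re < 0) : q = -1 := by
  have h1 := ddb_norm_sq q
  rw [h, him] at h1
  have h2 : q.re = -1 := by
    have : (q.re + 1) * (q.re - 1) = 0 := by
      simp at h1
      nlinarith
    rcases mul_eq_zero.1 this with h' | h' <;> linarith
  have hI := congrFun him 0
  have hJ := congrFun him 1
  have hK := congrFun him 2
  simp [im3] at hI hJ hK
  ext <;> simp [h2, hI, hJ, hK]

/-- the a priori estimate -/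
theorem ddb_key {J : Type} [Fintype J] (v : Fin 3 → ℝ) (hv1 : ‖of3 v‖ ≤ 1)
    (A : J → Matrix (Fin 3) (Fin 3) ℝ) (Q : J → ℍ[ℝ]) (hQ : ∀ j, ‖Q j‖ = 1)
    (hre : ∀ j, 0 < (Q j).re) {c C : ℝ} (hc : 0 ≤ c) (hC : 2 * C * c < 1)
    (him : ∀ j, im3 (Q j) = c • (v ᵥ* A j))
    (hest : ∀ δ : ℝ, 0 ≤ δ → (∀ j, ‖Q j - 1‖ ≤ δ) →
      ‖of3 (∑ j, A j *ᵥ im3 (Q j))‖ ≤ C * δ ^ 2) :
    c = 0 ∨ ∀ j, v ᵥ* A j = 0 := by
  set S : ℝ := ∑ j, (v ᵥ* A j) ⬝ᵥ (v ᵥ* A j) with hS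
  have hle : ∀ j, (v ᵥ* A j) ⬝ᵥ (v ᵥ* A j) ≤ S := fun j =>
    Finset.single_le_sum (f := fun j => (v ᵥ* A j) ⬝ᵥ (v ᵥ* A j))
      (fun i _ => ddb_dot_nonneg _) (Finset.mem_univ j)
  have hS0 : 0 ≤ S := Finset.sum_nonneg fun i _ => ddb_dot_nonneg _
  have h1 := hest (Real.sqrt (2 * (c ^ 2 * S))) (Real.sqrt_nonneg _) fun j => by
    refine Real.le_sqrt_of_sq_le ((ddb_sub_one (hQ j) (hre j)).trans ?_)
    rw [him j, smul_dotProduct, dotProduct_smul, smul_eq_mul, smul_eq_mul]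
    nlinarith [mul_le_mul_of_nonneg_left (hle j) (sq_nonneg c)]
  rw [Real.sq_sqrt (by positivity)] at h1
  have h2 : v ⬝ᵥ ∑ j, A j *ᵥ im3 (Q j) = c * S := by
    rw [dotProduct_sum, hS, Finset.mul_sum]
    refine Finset.sum_congr rfl fun j _ => ?_
    rw [dotProduct_mulVec, him j, dotProduct_smul, smul_eq_mul]
  have h3 := ddb_dot_le v (∑ j, A j *ᵥ im3 (Q j))
  have h4 : c * S ≤ C * (2 * (c ^ 2 * S)) := by
    rw [← h2]
    refine h3.trans (le_trans ?_ h1)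
    exact mul_le_of_le_one_left (norm_nonneg _) hv1
  have h5 : c * S = 0 := by
    have h6 : 0 ≤ c * S := mul_nonneg hc hS0
    nlinarith
  rcases mul_eq_zero.1 h5 with h | h
  · exact .inl h
  · refine .inr fun j => dotProduct_self_eq_zero.1 (le_antisymm ?_ (ddb_dot_nonneg _))
    rw [← h]
    exact hle j

/-- the imaginary part of `y σ`, acted on by `z` from the right -/
noncomputable def ddbT {α : Type} (σ : α) (z : ZG (FreeGroup α)) (y : α → ℍ[ℝ]) : ℍ[ℝ] :=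
  of3 (im3 (y σ) ᵥ* rz (AdW y) z)

theorem ddbT_og {α : Type} (σ : α) (w : FreeGroup α) :
    ddbT σ (og w) = fun y => ev y w⁻¹ * of3 (im3 (y σ)) * ev y w := by
  funext y
  rw [ddbT, rz_og, AdW_apply, ← mulVec_transpose, Ad_transpose (ev_ne_zero _ _), of3_Ad_mulVec,
    inv_inv, ev_inv]

theorem ddbT_add {α : Type} (σ : α) (z z' : ZG (FreeGroup α)) :
    ddbT σ (z + z') = fun y => ddbT σ z y + ddbT σ z' y := by
  funext y
  rw [ddbT, map_add, vecMul_add, of3_add, ddbT, ddbT]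

theorem ddbT_smul {α : Type} (σ : α) (r : ℤ) (z : ZG (FreeGroup α)) :
    ddbT σ (r • z) = fun y => (r : ℝ) • ddbT σ z y := by
  funext y
  rw [ddbT, map_zsmul, ← Int.cast_smul_eq_zsmul ℝ, vecMul_smul, ddb_of3_smul, ddbT]

theorem ddb_contDiff_im : ContDiff ℝ 1 fun q : ℍ[ℝ] => of3 (im3 q) := by
  let L : ℍ[ℝ] →ₗ[ℝ] ℍ[ℝ] :=
    { toFun := fun q => of3 (im3 q)
      map_add' := fun p q => by ext <;> simp [of3, im3]
      map_smul' := fun c q => by ext <;> simp [of3, im3] }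
  exact L.toContinuousLinearMap.contDiff

theorem ddb_contDiff_re : ContDiff ℝ 1 fun q : ℍ[ℝ] => q.re := by
  let L : ℍ[ℝ] →ₗ[ℝ] ℝ :=
    { toFun := fun q => q.re
      map_add' := fun p q => by simp
      map_smul' := fun c q => by simp }
  exact L.toContinuousLinearMap.contDiff

theorem ddb_contDiff_hv : ContDiff ℝ 1 hv := by
  unfold hv
  exact (contDiff_const.sub ((ddb_contDiff_re.comp (contDiff_id.pow 6)).pow 2)).mul
    (contDiff_const.sub ((ddb_contDiff_re.comp (contDiff_id.pow 10)).pow 2))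

theorem ddbT_diff {α : Type} [Fintype α] (σ : α) (z : ZG (FreeGroup α)) {y : α → ℍ[ℝ]}
    (hy : UnitT y) : ContDiffAt ℝ 1 (ddbT σ z) y := by
  induction z using MonoidAlgebra.induction_on with
  | of w =>
    have h : ∀ w, ContDiffAt ℝ 1 (fun y : α → ℍ[ℝ] => ev y w) y := fun w =>
      contDiffAt_ev (v := fun y => y) (fun a => contDiffAt_apply ℝ _ a y) (fun a => qu_ne (hy a)) w
    rw [ddbT_og]
    exact ((h _).mul (ddb_contDiff_im.contDiffAt.comp y (contDiffAt_apply ℝ _ σ y))).mul (h _)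
  | add x x' hx hx' => rw [ddbT_add]; exact hx.add hx'
  | smul r x hx => rw [ddbT_smul]; exact hx.const_smul _

theorem ddbT_cj {α : Type} (σ : α) (z : ZG (FreeGroup α)) {y : α → ℍ[ℝ]} (hy : UnitT y)
    {q : ℍ[ℝ]} (hq : q ≠ 0) : ddbT σ z (cj q y) = q * ddbT σ z y * q⁻¹ := by
  induction z using MonoidAlgebra.induction_on with
  | of w =>
    rw [ddbT_og]
    have h : of3 (im3 (cj q y σ)) = q * of3 (im3 (y σ)) * q⁻¹ := by
      rw [cj, ← Ad_mulVec, of3_Ad_mulVec]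
    simp only [ev_cj hy hq, h, mul_assoc, inv_mul_cancel_left₀ hq]
  | add x x' hx hx' =>
    rw [ddbT_add]
    simp only [hx, hx', mul_add, add_mul]
  | smul r x hx =>
    rw [ddbT_smul]
    simp only [hx, mul_smul_comm, smul_mul_assoc]

theorem ddbT_bdd {α : Type} (σ : α) (z : ZG (FreeGroup α)) :
    ∃ B : ℝ, ∀ y : α → ℍ[ℝ], UnitT y → ‖ddbT σ z y‖ ≤ B := by
  induction z using MonoidAlgebra.induction_on with
  | of w =>
    refine ⟨1, fun y hy => ?_⟩
    rw [ddbT_og]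
    simp only [norm_mul, norm_ev_of_unitT hy, one_mul, mul_one]
    exact (ddb_norm_im _).trans (hy σ).le
  | add x x' hx hx' =>
    obtain ⟨B, hB⟩ := hx
    obtain ⟨B', hB'⟩ := hx'
    refine ⟨B + B', fun y hy => ?_⟩
    rw [ddbT_add]
    exact (norm_add_le _ _).trans (add_le_add (hB y hy) (hB' y hy))
  | smul r x hx =>
    obtain ⟨B, hB⟩ := hx
    refine ⟨‖(r : ℝ)‖ * B, fun y hy => ?_⟩
    rw [ddbT_smul]
    simp only [norm_smul]
    exact mul_le_mul_of_nonneg_left (hB y hy) (norm_nonneg _)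

theorem ddb_rz_mapZ {H Γ M : Type} [Group H] [Group Γ] [Ring M] (ι : H →* Γ) (θ : Γ →* M)
    (z : ZG H) : rz θ (mapZ ι z) = rz (θ.comp ι) z := by
  induction z using MonoidAlgebra.induction_on with
  | of w => rw [mapZ_og, rz_og, rz_og, MonoidHom.comp_apply]
  | add x x' hx hx' => simp only [map_add, hx, hx']
  | smul r x hx => simp only [map_zsmul, hx]

theorem ddb_sr : (og gr - 1) * sr 30 = 0 := by
  have h : sr 30 = ∑ i ∈ Finset.range 30, og gr ^ i := by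
    simp only [sr, map_pow]
  rw [h, mul_geom_sum, ← map_pow, gr_pow, map_one, sub_self]

variable {s : Matrix (Fin 2) Rel (ZG G)} {κ : Type} [Fintype κ] [DecidableEq κ]

/-- the two-cycle `(ρ - 1) e_r` in the normalised realisation -/
theorem ddb_alg (hs : IsSph s) (H : HAlg s κ) :
    ∃ (m : Option (Fin 2 ⊕ κ) → ZG G) (kk : Fin 2 → ZG G), m ᵥ* foxM (piY H.W) H.relY = 0 ∧
      ∀ c : Rel, ∑ j, m j * H.ψ j (.inl c) + (kk 0 * s 0 c + kk 1 * s 1 c) =
        if c = .r then og gr - 1 else 0 := by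
  let e : Rel ⊕ κ → ZG G := Pi.single (.inl .r) (og gr - 1)
  have h1 : (e ᵥ* H.w') ∘ Sum.inl ᵥ* H.ψ + (e ᵥ* H.w') ∘ Sum.inr ᵥ* sX κ s = e := by
    rw [← vecMul_fromRows, vecMul_vecMul, H.w'_mul, vecMul_one]
  refine ⟨(e ᵥ* H.w') ∘ Sum.inl, (e ᵥ* H.w') ∘ Sum.inr, ?_, fun c => ?_⟩
  · have h2 : e ᵥ* foxM (piY H.W) (relX H.W) = 0 := by
      rw [single_vecMul]
      funext g
      change (og gr - 1) * foxM (piY H.W) (relX H.W) (.inl .r) g = 0
      rw [foxM_relX_inl, d2_r]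
      rcases g with _ | _ | i | a
      · simp [extG]
      · simp [extG]
      · fin_cases i
        · simp [extG]
        · simpa [extG] using ddb_sr
      · simp [extG]
    have h3 : sX κ s * foxM (piY H.W) (relX H.W) = 0 := by
      ext1 i g
      rw [mul_apply, Fintype.sum_sum_type]
      simp only [sX, fromCols_apply_inl, fromCols_apply_inr, Matrix.zero_apply, zero_mul,
        Finset.sum_const_zero, add_zero, foxM_relX_inl]
      have h4 : ∀ x, ∑ c, s i c * d2 c x = 0 := fun x => by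
        rw [← mul_apply, hs.cyc, Matrix.zero_apply]
      rcases g with _ | _ | i | a
      · exact h4 .t
      · exact h4 .u
      · fin_cases i
        · exact h4 .s
        · exact h4 .r
      · simp [extG]
    rw [← H.hψ, ← vecMul_vecMul, eq_sub_of_add_eq h1, sub_vecMul, h2, vecMul_vecMul, h3,
      vecMul_zero, sub_zero]
  · have h2 := congrFun h1 (.inl c)
    have h3 : e (.inl c) = if c = .r then og gr - 1 else 0 := by
      simp only [e, Pi.single_apply, Sum.inl.injEq]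
    rw [← h3, ← h2, ← Fin.sum_univ_two fun i => ((e ᵥ* H.w') ∘ Sum.inr) i * s i c]
    rfl

end Crest.Agent.R251
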