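import Crest.Agent.R251.Cls
import Crest.Agent.R251.Est
import Crest.Agent.R251.DeadB

/-!
# Row 251: an equivariant perturbation removes the non rigid solutions

`dead_ne`: `6 = λ_B x + y wB` and `vB θ(λ_B) = 0` give `vB = vB' θ(wB)`, similarly `vZ = vZ' θ(wZ)`.  If `3 ∣ j` then `θ b = 1`, so
`θ b' = θ bZ = 1`, `θ wB = θ wZ = 0`, and `e_x (θ ρ - 1) = 0` is false (`j` odd).  If `5 ∣ j`, `¬ 3 ∣ j`: `θ a = 1`, `θ wZ = 0`; multiply
on the right by `ω = (15 - N15)(1 + b σ)`: `wB μ_B ω = (1 - σ) t w3 ξ3 ω + 15 wB b' t⁻¹ N15 ω`, `N15 (15 - N15) = 0`,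
`w3 ξ3 (15 - N15) = 15 w3 ξ3`, and with `θ ρ^6 = 1`: `θ ξ3 = 1 - θ(1 + b + b²)`, `w3 (1 + b + b²) = 0`, `w3 (1 + b σ) = 0`; but
`e_x (θ ρ - 1) θ ω ≠ 0` for `θ ρ = rotz (± π/3)` (`θ N15 = diag (0, 0, 15)`).

`exists_pert`: `(m, k) = (ρ - 1) e_r ᵥ* w'`, so `m ψ + k s = (ρ - 1) e_r`, `m ᵥ* foxM relY = 0` (`(ρ - 1) sr 30 = 0`); `mt, C` from
`second_order` with `η j = - sg j`.  `A j y = rz (AdW y) (mt j)`, `v y = im3 (y σ)`, `χ y = expNegInvGlue (1/20 - hv (y ρ))`,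
`V j y = of3 (ε χ y • (A j y)ᵀ *ᵥ v y)`, `ε > 0` small (compactness or explicit bounds give `‖V‖ < 1`).  At a zero,
`im3 (η j • ev) = im3 (V j y)` with `re > 0`, so `‖η j • ev - 1‖² ≤ 2 ‖V j y‖²`; pairing the estimate with `v` gives
`ε χ Σ |A_jᵀ v|² ≤ 2 C ε² χ² Σ |A_jᵀ v|²`, hence `χ y = 0` or all `A_jᵀ v = 0`; then `V y = 0`, `y` is a `YSol`, `y = ext x`; if `hv = 0` then
`χ > 0` and `v ᵥ* θ(m j) = 0` for all `j` contradicts `dead_ne` after normalising `x`.  Smoothness: `Ad (ev y w)` is smooth where all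
`y x ≠ 0` (`Lib.GR.Words`); `rz (AdW y) z` is a finite sum.
-/

set_option autoImplicit false

open Matrix Quaternion Filter Topology

namespace Crest.Agent.R251

open Crest.Agent.Lib.GR

theorem deada_real (θ : G →* Matrix (Fin 3) (Fin 3) ℝ) {lam w x y : ZG G} {n : ℕ} (hn : n ≠ 0)
    (h : lam * x + y * w = n) (v : Fin 3 → ℝ) (hv : v ᵥ* rz θ lam = 0) : ∃ v', v = v' ᵥ* rz θ w := by
  have h1 := congrArg (fun z => v ᵥ* rz θ z) h
  simp only [map_add, map_mul, map_natCast, vecMul_add, ← vecMul_vecMul, hv, zero_vecMul, zero_add,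
    vecMul_natCast] at h1
  refine ⟨(n : ℝ)⁻¹ • (v ᵥ* rz θ y), ?_⟩
  have hn' : (n : ℝ) ≠ 0 := by exact_mod_cast hn
  rw [smul_vecMul, h1]
  funext i
  simp only [Pi.smul_apply, MulOpposite.smul_eq_mul_unop, MulOpposite.unop_op, smul_eq_mul]
  field_simp

theorem deada_rotz_mul (x y : ℝ) : rotz x * rotz y = rotz (x + y) := by
  ext i k
  fin_cases i <;> fin_cases k <;>
    simp [rotz, Matrix.mul_apply, Fin.sum_univ_three, Real.cos_add, Real.sin_add] <;> ring

theorem deada_rotz_pow (x : ℝ) (n : ℕ) : rotz x ^ n = rotz (n * x) := by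
  induction n with
  | zero =>
    ext i k
    fin_cases i <;> fin_cases k <;> simp [rotz]
  | succ n ih =>
    rw [pow_succ, ih, deada_rotz_mul]
    congr 1
    push_cast
    ring

theorem deada_rotz_int (k : ℤ) : rotz (k * (2 * Real.pi)) = 1 := by
  have h : Real.sin (k * (2 * Real.pi)) = 0 := by
    have := Real.sin_int_mul_pi (k * 2)
    push_cast at this
    rw [← this]
    congr 1
    ring
  ext i l
  fin_cases i <;> fin_cases l <;> simp [rotz, Real.cos_int_mul_two_pi, h]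

theorem deada_inv (θ : G →* Matrix (Fin 3) (Fin 3) ℝ) {g : G} (h : θ g = 1) : θ g⁻¹ = 1 := by
  have := map_mul θ g g⁻¹
  rw [mul_inv_cancel, map_one, h, one_mul] at this
  exact this.symm

theorem deada_conj (θ : G →* Matrix (Fin 3) (Fin 3) ℝ) {g : G} (h : θ g = 1) (a b : G) (hab : a * b = 1) :
    θ (a * g * b) = 1 := by
  rw [map_mul, map_mul, h, mul_one, ← map_mul, hab, map_one]

theorem deada_mv (a b c d e f g h i x y z : ℝ) : !![a, b, c; d, e, f; g, h, i] *ᵥ ![x, y, z] =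
    ![a * x + b * y + c * z, d * x + e * y + f * z, g * x + h * y + i * z] := by
  funext k
  fin_cases k <;> simp [Matrix.mulVec, dotProduct, Fin.sum_univ_three]

theorem deada_five (θ : G →* Matrix (Fin 3) (Fin 3) ℝ) {t : ℝ} (ht : t * t = 3 / 4) (hσ : θ gs = stdS)
    (hρ : θ gr = !![1 / 2, -t, 0; t, 1 / 2, 0; 0, 0, 1]) :
    θ ga = 1 ∧ (rz θ w3 * rz θ xi3) *ᵥ ![-1 / 2, t, 0] = 0 ∧ rz θ N15 *ᵥ ![-1 / 2, t, 0] = 0 := by
  have hQ : θ gr ^ 2 = !![-1 / 2, -t, 0; t, -1 / 2, 0; 0, 0, 1] := by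
    rw [hρ, pow_two]
    ext i k
    fin_cases i <;> fin_cases k <;> simp [Matrix.mul_apply, Fin.sum_univ_three] <;> linarith
  have hQ2 : θ gr ^ 4 = !![-1 / 2, t, 0; -t, -1 / 2, 0; 0, 0, 1] := by
    rw [show 4 = 2 + 2 from rfl, pow_add, hQ]
    ext i k
    fin_cases i <;> fin_cases k <;> simp [Matrix.mul_apply, Fin.sum_univ_three] <;> linarith
  have hQ3 : θ gr ^ 6 = 1 := by
    rw [show 6 = 4 + 2 from rfl, pow_add, hQ, hQ2]
    ext i k
    fin_cases i <;> fin_cases k <;> simp [Matrix.mul_apply, Fin.sum_univ_three] <;> linarith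
  have hb : θ gb = !![-1 / 2, t, 0; -t, -1 / 2, 0; 0, 0, 1] := by
    rw [gb, map_pow, show 10 = 6 + 4 from rfl, pow_add, hQ3, one_mul, hQ2]
  have hbi : θ gb⁻¹ = !![-1 / 2, -t, 0; t, -1 / 2, 0; 0, 0, 1] := by
    have e : gb⁻¹ = gr ^ 20 := by
      rw [inv_eq_iff_mul_eq_one, gb, ← pow_add]
      exact gr_pow
    rw [e, map_pow, show 20 = 6 * 3 + 2 from rfl, pow_add, pow_mul, hQ3, one_pow, one_mul, hQ]
  refine ⟨by rw [ga, map_pow, hQ3], ?_, ?_⟩
  · have e1 : rz θ xi3 *ᵥ ![-1 / 2, t, 0] = ![-1 / 2, t, 0] := by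
      rw [xi3, map_neg, map_mul, map_add, map_pow, rz_og, rz_og, map_one, hQ, hbi, neg_mulVec, ← mulVec_mulVec,
        add_mulVec, one_mulVec, deada_mv]
      have e0 : (![-1 / 2, t, 0] + ![-1 / 2 * (-1 / 2) + -t * t + 0 * 0, t * (-1 / 2) + -1 / 2 * t + 0 * 0,
          0 * (-1 / 2) + 0 * t + 1 * 0] : Fin 3 → ℝ) = ![-1, 0, 0] := by
        funext i
        fin_cases i <;> simp <;> linarith
      rw [e0, deada_mv]
      funext i
      fin_cases i <;> simp <;> norm_num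
    have e2 : (1 - θ gb * θ gs) *ᵥ ![-1 / 2, t, 0] = 0 := by
      rw [sub_mulVec, one_mulVec, ← mulVec_mulVec, hb, hσ]
      funext i
      fin_cases i <;> simp [stdS, Matrix.mulVec, dotProduct, Fin.sum_univ_three] <;> linarith
    rw [← mulVec_mulVec, e1, w3, map_mul, map_sub, map_sub, map_mul, rz_og, rz_og, map_one, ← mulVec_mulVec, e2,
      mulVec_zero]
  · have e1 : N15 * (og gr ^ 2 - 1) = 0 := by
      rw [N15, geom_sum_mul, ← pow_mul, ← map_pow, show 2 * 15 = 30 from rfl, gr_pow, map_one, sub_self]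
    have e2 : (θ gr ^ 2 - 1) *ᵥ ![1 / 2, -t / 3, 0] = ![-1 / 2, t, 0] := by
      rw [sub_mulVec, one_mulVec, hQ]
      funext i
      fin_cases i <;> simp [Matrix.mulVec, dotProduct, Fin.sum_univ_three] <;> linarith
    have e3 := congrArg (rz θ) e1
    rw [map_mul, map_sub, map_pow, rz_og, map_one, map_zero] at e3
    rw [← e2, mulVec_mulVec, e3, zero_mulVec]

theorem dead_ne {s : Matrix (Fin 2) Rel (ZG G)} (hs : IsSph s) (θ : G →* Matrix (Fin 3) (Fin 3) ℝ) {j : ℤ}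
    (hj : Odd j) (h35 : 3 ∣ j ∨ 5 ∣ j) (hσ : θ gs = stdS) (hρ : θ gr = rotz (ang j))
    (vB vZ : Fin 3 → ℝ) (hB : vB ᵥ* rz θ lamB = 0) (hZ : vZ ᵥ* rz θ lamZ = 0) :
    vB ᵥ* rz θ (s 0 .r) + vZ ᵥ* rz θ (s 1 .r) ≠ ![1, 0, 0] ᵥ* (θ gr - 1) := by
  intro heq
  obtain ⟨x, y, hxy⟩ := realB
  obtain ⟨x', y', hxy'⟩ := realZ
  obtain ⟨uB, rfl⟩ := deada_real θ (n := 6) (by norm_num) (by exact_mod_cast hxy) vB hB
  obtain ⟨uZ, rfl⟩ := deada_real θ (n := 15) (by norm_num) (by exact_mod_cast hxy') vZ hZ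
  have hpi := Real.pi_pos
  by_cases h3 : 3 ∣ j
  · obtain ⟨k, rfl⟩ := h3
    have hb : θ gb = 1 := by
      rw [gb, map_pow, hρ, deada_rotz_pow, ← deada_rotz_int k]
      congr 1
      simp only [ang]
      push_cast
      ring
    have hbB : θ gbB = 1 := deada_conj θ hb _ _ (mul_inv_cancel _)
    have hbZ : θ gbZ = 1 := deada_conj θ hbB _ _ (inv_mul_cancel _)
    have hwB : rz θ wB = 0 := by
      simp only [wB, map_mul, map_sub, map_one, rz_og, hbB, sub_self, mul_zero, zero_mul]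
    have hwZ : rz θ wZ = 0 := by
      simp only [wZ, map_mul, map_sub, rz_og, hbZ, deada_inv θ hbZ, sub_self, mul_zero, zero_mul]
    rw [hwB, hwZ, vecMul_zero, vecMul_zero, zero_vecMul, zero_vecMul, add_zero, hρ] at heq
    have h0 := congrFun heq 0
    simp only [rotz, vecMul, dotProduct, Fin.sum_univ_three] at h0
    simp at h0
    have h1 : Real.cos (ang (3 * k)) = 1 := by linarith
    rw [Real.cos_eq_one_iff] at h1
    obtain ⟨n, hn⟩ := h1
    simp only [ang] at hn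
    have h2 : ((3 * k : ℤ) : ℝ) = ((30 * n : ℤ) : ℝ) := by
      push_cast at hn ⊢
      have : (3 * (k : ℝ) - 30 * n) * Real.pi = 0 := by linarith
      rcases mul_eq_zero.1 this with h | h
      · linarith
      · exact absurd h hpi.ne'
    have h4 : 3 * k = 30 * n := by exact_mod_cast h2
    obtain ⟨m, hm⟩ := hj
    omega
  · have h5 : 5 ∣ j := h35.resolve_left h3
    have hc : Real.cos (ang j) = 1 / 2 := by
      obtain ⟨m, hm⟩ := hj
      have : ∃ n : ℤ, j = 30 * n + 5 ∨ j = 30 * n - 5 := by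
        have : j % 30 = 5 ∨ j % 30 = 25 := by omega
        rcases this with h | h
        · exact ⟨j / 30, .inl (by omega)⟩
        · exact ⟨j / 30 + 1, .inr (by omega)⟩
      obtain ⟨n, rfl | rfl⟩ := this
      · rw [← Real.cos_pi_div_three, ← Real.cos_add_int_mul_two_pi (Real.pi / 3) n]
        congr 1
        simp only [ang]
        push_cast
        ring
      · rw [← Real.cos_pi_div_three, ← Real.cos_neg (Real.pi / 3), ← Real.cos_add_int_mul_two_pi (-(Real.pi / 3)) n]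
        congr 1
        simp only [ang]
        push_cast
        ring
    have ht : Real.sin (ang j) * Real.sin (ang j) = 3 / 4 := by
      have := Real.sin_sq_add_cos_sq (ang j)
      rw [hc] at this
      linarith
    rw [rotz, hc] at hρ
    generalize Real.sin (ang j) = t at ht hρ
    obtain ⟨ha, e1, e2⟩ := deada_five θ ht hσ hρ
    have hwZ : rz θ wZ = 0 := by
      simp only [wZ, map_mul, map_sub, rz_og, ha, deada_inv θ ha, sub_self, zero_mul]
    have e3 : (rz θ wB * rz θ (s 0 .r)) *ᵥ ![-1 / 2, t, 0] = 0 := by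
      rw [← map_mul, hs.muB, wB_eq, map_add, mul_assoc _ w3, map_mul, map_mul _ w3, map_mul _ _ N15, add_mulVec,
        ← mulVec_mulVec, e1, ← mulVec_mulVec, e2, mulVec_zero, mulVec_zero, add_zero]
    rw [hwZ, vecMul_zero, zero_vecMul, add_zero, vecMul_vecMul] at heq
    have h0 := congrArg (fun v => v ⬝ᵥ ![-1 / 2, t, 0]) heq
    simp only [← dotProduct_mulVec, e3, dotProduct_zero] at h0
    rw [sub_mulVec, one_mulVec, hρ] at h0
    simp [Matrix.mulVec, dotProduct, Fin.sum_univ_three] at h0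
    linarith

variable {s : Matrix (Fin 2) Rel (ZG G)} {κ : Type} [Fintype κ] [DecidableEq κ]

/-- at a non rigid solution the vector field does not vanish -/
theorem ddb_ne (hs : IsSph s) (H : HAlg s κ) {m : Option (Fin 2 ⊕ κ) → ZG G} {kk : Fin 2 → ZG G}
    (hm : ∀ c : Rel, ∑ j, m j * H.ψ j (.inl c) + (kk 0 * s 0 c + kk 1 * s 1 c) =
      if c = .r then og gr - 1 else 0)
    {mt : Option (Fin 2 ⊕ κ) → ZG (FreeGroup (Gn (Fin 2 ⊕ κ)))}
    (hmt : ∀ j, mapZ (FreeGroup.lift (piY H.W)) (mt j) = m j) {y : Gn (Fin 2 ⊕ κ) → ℍ[ℝ]}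
    (hy : YSol H y) (h0 : 0 < 1 / 20 - hv (y (emb κ .r)) → ∀ j, ddbT (emb κ .s) (mt j) y = 0) :
    1 / 10 < hv (y (emb κ .r)) := by
  obtain ⟨x, hx, rfl⟩ := hy.exists_xSol
  obtain ⟨q, j, hq, hj, hs', hr'⟩ := hx.normal
  have hq0 := qu_ne hq
  have e1 : hv (H.ext x (emb κ .r)) = Real.sin (3 * ang j) ^ 2 * Real.sin (5 * ang j) ^ 2 := by
    rw [HAlg.ext, extG_emb, ← hv_conj _ hq0, hr', hv_normal]
  rw [e1] at h0 ⊢
  rcases hv_eq_zero_or hj with ⟨h35, hz⟩ | ⟨-, h⟩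
  swap
  · exact h
  exfalso
  have hx' := hx.cj hq0
  have h1 : ∀ i, ![1, 0, 0] ᵥ* rz hx'.th (m i) = 0 := by
    intro i
    have h2 := ddbT_cj (emb κ .s) (mt i) hy.unit hq0
    rw [h0 (by rw [hz]; norm_num) i, mul_zero, zero_mul, ← H.ext_cj hx.unit hq0, ddbT] at h2
    have h3 := congrArg im3 h2
    rw [im3_of3, ← of3_zero, im3_of3] at h3
    have h4 : AdW (H.ext (cj q x)) = hx'.th.comp (FreeGroup.lift (piY H.W)) :=
      MonoidHom.ext fun w => H.AdW_ext hx' w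
    have h5 : im3 (H.ext (cj q x) (emb κ .s)) = ![1, 0, 0] := by
      rw [HAlg.ext, extG_emb, cj, hs']
      rfl
    rwa [h4, h5, ← ddb_rz_mapZ, hmt] at h3
  have h2 : ∀ c : Rel, (![1, 0, 0] ᵥ* rz hx'.th (kk 0)) ᵥ* rz hx'.th (s 0 c) +
      (![1, 0, 0] ᵥ* rz hx'.th (kk 1)) ᵥ* rz hx'.th (s 1 c) =
      ![1, 0, 0] ᵥ* rz hx'.th (if c = .r then og gr - 1 else 0) := by
    intro c
    rw [← hm c, map_add, map_add, map_sum, vecMul_add, vecMul_add, map_mul, map_mul,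
      vecMul_vecMul, vecMul_vecMul, Matrix.vecMul_sum, Finset.sum_eq_zero, zero_add]
    intro i _
    rw [map_mul, ← vecMul_vecMul, h1, zero_vecMul]
  refine dead_ne hs hx'.th hj h35 ?_ ?_ (![1, 0, 0] ᵥ* rz hx'.th (kk 0))
    (![1, 0, 0] ᵥ* rz hx'.th (kk 1)) ?_ ?_ ?_
  · rw [gs, hx'.th_gen, cj, hs', Ad_normal_s]
  · rw [gr, hx'.th_gen, cj, hr', Ad_normal_r]
  · have h3 := h2 .B
    rwa [hs.BB, hs.ZB, if_neg (by decide), map_zero, vecMul_zero, vecMul_zero, add_zero] at h3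
  · have h3 := h2 .Z
    rwa [hs.BZ, hs.ZZ, if_neg (by decide), map_zero, vecMul_zero, vecMul_zero, zero_add] at h3
  · have h3 := h2 .r
    rwa [if_pos rfl, map_sub, map_one, rz_og] at h3

theorem HAlg.exists_pert (hs : IsSph s) (H : HAlg s κ) :
    ∃ V : Option (Fin 2 ⊕ κ) → (Gn (Fin 2 ⊕ κ) → ℍ[ℝ]) → ℍ[ℝ],
      (∀ j y, UnitT y → ContDiffAt ℝ 1 (V j) y) ∧
      (∀ j y (q : ℍ[ℝ]), UnitT y → ‖q‖ = 1 → V j (cj q y) = q * V j y * q⁻¹) ∧
      (∀ j y, UnitT y → (V j y).re = 0) ∧ (∀ j y, UnitT y → ‖V j y‖ < 1) ∧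
      (∀ y, 1 / 10 < hv (y (emb κ .r)) → ∀ j, V j =ᶠ[𝓝 y] 0) ∧
      (∀ y, Zero H.relY V y ↔ YSol H y ∧ 1 / 10 < hv (y (emb κ .r))) := by
  obtain ⟨m, kk, hm0, hm⟩ := ddb_alg hs H
  obtain ⟨mt, C, hmt, hC⟩ := second_order (piY H.W) (piY_surj H.W) H.relY H.ker_eq m hm0
    (fun j => -sg j) (fun j => by cases j <;> simp [sg])
  choose B hB using fun j => ddbT_bdd (emb κ .s) (mt j)
  obtain ⟨ε, hε, hεC, hεB⟩ : ∃ ε : ℝ, 0 < ε ∧ 2 * |C| * ε < 1 ∧ ∀ j, ε * |B j| < 1 := by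
    have hS : 0 ≤ ∑ j, |B j| := Finset.sum_nonneg fun j _ => abs_nonneg _
    have hC0 := abs_nonneg C
    have hD : 0 < 1 + 2 * |C| + ∑ j, |B j| := by positivity
    refine ⟨(1 + 2 * |C| + ∑ j, |B j|)⁻¹, inv_pos.2 hD, ?_, fun j => ?_⟩
    · rw [← div_eq_mul_inv, div_lt_one hD]
      linarith
    · have := Finset.single_le_sum (f := fun j => |B j|) (fun i _ => abs_nonneg _)
        (Finset.mem_univ j)
      rw [inv_mul_lt_one₀ hD]
      linarith
  let χ : (Gn (Fin 2 ⊕ κ) → ℍ[ℝ]) → ℝ := fun y =>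
    ε * Real.smoothTransition (1 / 20 - hv (y (emb κ .r)))
  have hχ0 : ∀ y, 0 ≤ χ y := fun y => mul_nonneg hε.le (Real.smoothTransition.nonneg _)
  have hχ1 : ∀ y, χ y ≤ ε := fun y => mul_le_of_le_one_right hε.le (Real.smoothTransition.le_one _)
  have hχz : ∀ y, 1 / 20 < hv (y (emb κ .r)) → χ y = 0 := fun y hy => by
    simp only [χ]
    rw [Real.smoothTransition.zero_of_nonpos (by linarith), mul_zero]
  have hhv : ContDiff ℝ 1 fun y : Gn (Fin 2 ⊕ κ) → ℍ[ℝ] => hv (y (emb κ .r)) :=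
    ddb_contDiff_hv.comp (contDiff_apply ℝ _ _)
  have hχd : ContDiff ℝ 1 χ :=
    contDiff_const.mul ((Real.smoothTransition.contDiff (n := 1)).comp (contDiff_const.sub hhv))
  refine ⟨fun j y => χ y • ddbT (emb κ .s) (mt j) y, fun j y hy => ?_, fun j y q hy hq => ?_,
    fun j y _ => ?_, fun j y hy => ?_, fun y hy j => ?_, fun y => ⟨fun hy => ?_, fun hy => ?_⟩⟩
  · exact hχd.contDiffAt.smul (ddbT_diff _ _ hy)
  · have : χ (cj q y) = χ y := by
      simp only [χ, cj, hv_conj _ (qu_ne hq)]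
    simp only [this, ddbT_cj _ _ hy (qu_ne hq), mul_smul_comm, smul_mul_assoc]
  · simp [ddbT, of3]
  · rw [norm_smul, Real.norm_of_nonneg (hχ0 y)]
    exact lt_of_le_of_lt (mul_le_mul (hχ1 y) ((hB j y hy).trans (le_abs_self _)) (norm_nonneg _)
      hε.le) (hεB j)
  · have : ∀ᶠ y' in 𝓝 y, 1 / 20 < hv (y' (emb κ .r)) :=
      hhv.continuous.continuousAt.eventually (lt_mem_nhds (by linarith))
    filter_upwards [this] with y' hy'
    simp [hχz y' hy']
  · obtain ⟨hu, hz⟩ := hy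
    have hn : ∀ j, ‖(-sg j) • ev y (H.relY j)‖ = 1 := fun j => by
      rw [norm_smul, norm_ev_of_unitT hu]
      cases j <;> simp [sg]
    have him : ∀ j, im3 ((-sg j) • ev y (H.relY j)) =
        χ y • (im3 (y (emb κ .s)) ᵥ* rz (AdW y) (mt j)) := fun j => by
      have h1 := (hz j).1
      simp only [ddbT, ← ddb_of3_smul] at h1
      generalize χ y • (im3 (y (emb κ .s)) ᵥ* rz (AdW y) (mt j)) = w at h1 ⊢
      have hI := congrFun h1 0
      have hJ := congrFun h1 1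
      have hK := congrFun h1 2
      simp [im3, of3] at hI hJ hK
      funext i
      fin_cases i <;> simp [im3] <;> linarith
    have hkey := ddb_key (im3 (y (emb κ .s))) ((ddb_norm_im _).trans (hu _).le)
      (fun j => rz (AdW y) (mt j)) (fun j => (-sg j) • ev y (H.relY j)) hn
      (fun j => by
        have := (hz j).2
        simp only [neg_smul, Quaternion.re_neg]
        linarith) (C := C) (hχ0 y)
      (by
        have h1 := mul_le_mul (le_abs_self C) (hχ1 y) (hχ0 y) (abs_nonneg C)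
        linarith) him (fun δ hδ h => hC y δ hu hδ h)
    have hone : ∀ j, sg j • ev y (H.relY j) = -1 := fun j => by
      refine ddb_neg_one (by simpa using hn j) ?_ (hz j).2
      have h1 := him j
      have h2 : χ y • (im3 (y (emb κ .s)) ᵥ* rz (AdW y) (mt j)) = 0 := by
        rcases hkey with h | h
        · rw [h, zero_smul]
        · rw [h j, smul_zero]
      rw [h2, neg_smul] at h1
      funext i
      have h3 := congrFun h1 i
      fin_cases i <;> simpa [im3] using h3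
    have hY : YSol H y := ⟨hu, by simpa [sg] using hone none, fun a => by
      simpa [sg] using hone (some a)⟩
    refine ⟨hY, ddb_ne hs H hm hmt hY fun hp j => ?_⟩
    rcases hkey with h | h
    · exact absurd h (mul_pos hε (Real.smoothTransition.pos_of_pos hp)).ne'
    · rw [ddbT, h j, of3_zero]
  · obtain ⟨hY, hp⟩ := hy
    have hone : ∀ j, sg j • ev y (H.relY j) = -1 := fun j => by
      cases j with
      | none => simp [sg, hY.none]
      | some a => simp [sg, hY.some a]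
    refine ⟨hY.unit, fun j => ?_⟩
    simp only [hone, hχz y (by linarith), zero_smul, add_zero]
    exact ⟨by funext i; fin_cases i <;> simp [im3], by simp⟩

end Crest.Agent.R251
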