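import Crest.Agent.R251.Loc
import Crest.Agent.R251.Dead
import Crest.Agent.R251.KMain
import Crest.Agent.R251.TopMain

/-!
# Row 251: no finite presentation realises `X`; the theorem

`HAlg.false`: take `V` from `exists_pert`, `e y = if SignAt H.relY y 1 then 1 else -1`, `T` from `vanish`.  A point of `T` is
`y = H.ext x` with `XSol x`, `cj q x` in normal form with `j` prime to `30`, standard with signs `s₁ … s₄`;
`SignAt y (c * (c' * FN FS) * DD θ w)` (`exists_tauSign`, `TauSign.conj`, `th_cj`, `signAt`, `DD_conj`), this real number `r y` is nonzero and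
`e y` is its sign (`SignAt.unique`).  On `T₁ = {1/2 < re (y ρ ^ 6) ^ 2}` all `r y` have one sign (`F_neg`, `kmain1`) and `T₁` is not empty
(`exists_xSol`, `exists_slicePair`).  On the complement `T₂` the map `y ↦ H.ext (cj q' (alZ x))` (`q'` from `exists_slicePair`) is injective
(`SlicePair.unique`, `alZ_cj`, `alZ_inj`), maps `T₂` to itself and reverses `e` (`F_flip`, `kmain2`, `isStd_alZ`), so `Σ_{T₂} e = 0`.
-/

set_option autoImplicit false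

open Matrix Quaternion

namespace Crest.Agent.R251

theorem fin_cj_cj {α : Type} (p q : ℍ[ℝ]) (x : α → ℍ[ℝ]) : cj p (cj q x) = cj (p * q) x := by
  funext a
  simp only [cj, _root_.mul_inv_rev, mul_assoc]

theorem fin_cj_one {α : Type} (x : α → ℍ[ℝ]) : cj 1 x = x := by
  funext a
  simp [cj]

theorem fin_cj_neg {α : Type} (q : ℍ[ℝ]) (x : α → ℍ[ℝ]) : cj (-q) x = cj q x := by
  funext a
  simp [cj]

theorem fin_re_conj {q : ℍ[ℝ]} (hq : q ≠ 0) (a : ℍ[ℝ]) : ((q * a * q⁻¹) ^ 6).re = (a ^ 6).re := by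
  have h1 : ∀ u v : ℍ[ℝ], (u * v).re = (v * u).re := fun u v => by
    simp only [Quaternion.re_mul]; ring
  have h2 : (q * a * q⁻¹) ^ 6 = q * a ^ 6 * q⁻¹ := by
    simp only [pow_succ, pow_zero, one_mul, mul_assoc, inv_mul_cancel_left₀ hq]
  rw [h2, h1, inv_mul_cancel_left₀ hq]

theorem fin_not_dvd {j p : ℤ} (hj : IsCoprime j 30) (hp : p ∣ 30) (h1 : 1 < p) : ¬ p ∣ j := fun hd => by
  have := hj.isUnit_of_dvd' hd hp
  rw [Int.isUnit_iff] at this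
  omega

theorem fin_hv {j : ℤ} (hj : IsCoprime j 30) :
    1 / 10 < hv ⟨Real.cos (ang j / 2), 0, 0, Real.sin (ang j / 2)⟩ := by
  have h2 := fin_not_dvd hj (p := 2) (by norm_num) (by norm_num)
  rw [hv_normal]
  rcases hv_eq_zero_or (j := j) (Int.not_even_iff_odd.1 fun h => h2 h.two_dvd) with ⟨h | h, -⟩ | h
  · exact absurd h (fin_not_dvd hj (by norm_num) (by norm_num))
  · exact absurd h (fin_not_dvd hj (by norm_num) (by norm_num))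
  · exact h.2

theorem fin_not_comm {x : Gen → ℍ[ℝ]} (h : XSol x) {j : ℤ} {s₁ s₂ s₃ s₄ : ℝ}
    (hs : IsStd h.th j s₁ s₂ s₃ s₄) : x .t * x .u ≠ x .u * x .t := fun e =>
  hs.not_comm (by rw [gt, gu, h.th_gen, h.th_gen, ← Ad_mul, ← Ad_mul, e])

theorem fin_normal {x : Gen → ℍ[ℝ]} (h : XSol x) (hv' : 1 / 10 < hv (x .r)) :
    ∃ (x₀ : Gen → ℍ[ℝ]) (h₀ : XSol x₀) (q : ℍ[ℝ]) (j : ℤ) (s₁ s₂ s₃ s₄ : ℝ), ‖q‖ = 1 ∧ x = cj q x₀ ∧
      IsStd h₀.th j s₁ s₂ s₃ s₄ ∧ x₀ .r = ⟨Real.cos (ang j / 2), 0, 0, Real.sin (ang j / 2)⟩ := by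
  obtain ⟨q, j, hq, hj, h1, h2⟩ := h.normal
  have hq0 := qu_ne hq
  rw [← hv_conj _ hq0, h2, hv_normal] at hv'
  rcases hv_eq_zero_or hj with ⟨-, h3⟩ | ⟨h3, -⟩
  · rw [h3] at hv'; norm_num at hv'
  · obtain ⟨s₁, s₂, s₃, s₄, h4⟩ := (h.cj hq0).isStd h3 h1 h2
    exact ⟨cj q x, h.cj hq0, q⁻¹, j, s₁, s₂, s₃, s₄, by rw [norm_inv, hq, inv_one],
      by rw [fin_cj_cj, inv_mul_cancel₀ hq0, fin_cj_one], h4, h2⟩

theorem fin_sign {s : Matrix (Fin 2) Rel (ZG G)} (hs : IsSph s) {κ : Type} [Fintype κ] [DecidableEq κ]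
    (H : HAlg s κ) : ∃ c : ℝ, c ≠ 0 ∧ ∀ (x : Gen → ℍ[ℝ]) (h : XSol x) (q : ℍ[ℝ]) (j : ℤ) (s₁ s₂ s₃ s₄ : ℝ),
      q ≠ 0 → IsStd h.th j s₁ s₂ s₃ s₄ →
        SignAt H.relY (H.ext (cj q x)) (c * (FN j (s₂ * s₄) * FS j (s₂ * s₄)) * DD h.th H.w) := by
  obtain ⟨c, hc, h1⟩ := H.signAt hs
  obtain ⟨c', hc', h2⟩ := exists_tauSign hs
  refine ⟨c * c', mul_ne_zero hc hc', fun x h q j s₁ s₂ s₃ s₄ hq hst => ?_⟩
  have hP : Ad q * Ad q⁻¹ = 1 := by rw [← Ad_mul, mul_inv_cancel₀ hq, Ad_one]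
  have h3 := h1 _ (h.cj hq) _ (TauSign.conj _ _ hP (h.th_cj hq) (h2 _ _ _ _ _ _ hst))
  rwa [DD_conj _ _ _ _ hP (h.th_cj hq), ← mul_assoc] at h3

open Classical in
theorem fin_e {s : Matrix (Fin 2) Rel (ZG G)} {κ : Type} [Fintype κ] [DecidableEq κ] {H : HAlg s κ}
    {y : Gn (Fin 2 ⊕ κ) → ℍ[ℝ]} (hy : YSol H y) {r : ℝ} (hr : SignAt H.relY y r) :
    0 < (if SignAt H.relY y 1 then 1 else -1) * r ∧
      SignAt H.relY y (if SignAt H.relY y 1 then 1 else -1) := by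
  have hA : ∀ j, AdW y (H.relY j) = 1 := fun j => by
    rw [AdW_apply]
    cases j with
    | none => rw [hy.none, Ad_neg, Ad_one]
    | some a => rw [hy.some, Ad_one]
  split_ifs with h
  · exact ⟨h.unique hy.unit hA hr, h⟩
  · obtain ⟨Ξ, hΞ⟩ := hr
    rw [mul_assoc] at hΞ
    rcases pos_and_pos_or_neg_and_neg_of_mul_pos hΞ with ⟨-, h2⟩ | ⟨h1, h2⟩
    · exact absurd ⟨Ξ, by rwa [one_mul]⟩ h
    · exact ⟨by linarith, Ξ, by linarith⟩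

theorem fin_sum {α : Type} (T : Finset α) (e : α → ℝ) (R : α → α → Prop)
    (h : ∀ y ∈ T, ∃ y' ∈ T, e y' = -e y ∧ R y y')
    (hR : ∀ y₁ ∈ T, ∀ y₂ ∈ T, ∀ y', R y₁ y' → R y₂ y' → y₁ = y₂) : ∑ y ∈ T, e y = 0 := by
  choose! φ h1 h2 h3 using h
  have hi : ∀ y₁ ∈ T, ∀ y₂ ∈ T, φ y₁ = φ y₂ → y₁ = y₂ := fun y₁ hy₁ y₂ hy₂ he =>
    hR y₁ hy₁ y₂ hy₂ _ (h3 y₁ hy₁) (he ▸ h3 y₂ hy₂)
  have h4 : ∑ y ∈ T, -e y = ∑ y ∈ T, e y :=
    Finset.sum_bij (fun y _ => φ y) h1 hi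
      (fun b hb => by
        obtain ⟨a, ha, hab⟩ := Finset.surj_on_of_inj_on_of_card_le (fun y _ => φ y) h1
          (fun a b ha hb => hi a ha b hb) le_rfl b hb
        exact ⟨a, ha, hab.symm⟩)
      fun y hy => (h2 y hy).symm
  rw [Finset.sum_neg_distrib] at h4
  linarith

theorem HAlg.false {s : Matrix (Fin 2) Rel (ZG G)} (hs : IsSph s) {κ : Type} [Fintype κ] [DecidableEq κ]
    (H : HAlg s κ) : False := by
  classical
  obtain ⟨V, hV1, hV2, hV3, hV4, hV5, hV6⟩ := H.exists_pert hs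
  obtain ⟨c, hc, hsg⟩ := fin_sign hs H
  have hr : ∀ x : Gen → ℍ[ℝ], H.ext x (emb κ .r) = x .r := fun _ => rfl
  have hinj : ∀ {x x' : Gen → ℍ[ℝ]}, H.ext x = H.ext x' → x = x' := fun {x x'} h => funext fun g => by
    have := congrFun h (emb κ g)
    rwa [HAlg.ext, HAlg.ext, extG_emb, extG_emb] at this
  have hZ : ∀ y, Zero H.relY V y → ∃ (x₀ : Gen → ℍ[ℝ]) (h₀ : XSol x₀) (q : ℍ[ℝ]) (j : ℤ) (s₁ s₂ s₃ s₄ : ℝ),
      ‖q‖ = 1 ∧ y = H.ext (cj q x₀) ∧ IsStd h₀.th j s₁ s₂ s₃ s₄ ∧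
        x₀ .r = ⟨Real.cos (ang j / 2), 0, 0, Real.sin (ang j / 2)⟩ := fun y hy => by
    obtain ⟨h1, h2⟩ := (hV6 y).1 hy
    obtain ⟨x, hx, rfl⟩ := h1.exists_xSol
    obtain ⟨x₀, h₀, q, j, s₁, s₂, s₃, s₄, hq, rfl, h3, h4⟩ := fin_normal hx h2
    exact ⟨x₀, h₀, q, j, s₁, s₂, s₃, s₄, hq, rfl, h3, h4⟩
  have hZ' : ∀ (x₀ : Gen → ℍ[ℝ]) (_ : XSol x₀) (q : ℍ[ℝ]) (j : ℤ), ‖q‖ = 1 → IsCoprime j 30 →
      x₀ .r = ⟨Real.cos (ang j / 2), 0, 0, Real.sin (ang j / 2)⟩ → Zero H.relY V (H.ext (cj q x₀)) :=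
    fun x₀ h₀ q j hq hj h1 => (hV6 _).2 ⟨H.ySol_ext (h₀.cj (qu_ne hq)), by
      rw [hr, cj, hv_conj _ (qu_ne hq), h1]; exact fin_hv hj⟩
  have h6 : ∀ (x₀ : Gen → ℍ[ℝ]) (q : ℍ[ℝ]) (j : ℤ), ‖q‖ = 1 → IsCoprime j 30 →
      x₀ .r = ⟨Real.cos (ang j / 2), 0, 0, Real.sin (ang j / 2)⟩ →
      (1 / 2 < (H.ext (cj q x₀) (emb κ .r) ^ 6).re ^ 2 ↔ j % 5 = 1 ∨ j % 5 = 4) :=
    fun x₀ q j hq hj h1 => by rw [hr, cj, fin_re_conj (qu_ne hq), h1]; exact re_pow_six hj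
  set e : (Gn (Fin 2 ⊕ κ) → ℍ[ℝ]) → ℝ := fun y => if SignAt H.relY y 1 then 1 else -1 with he
  have he1 : ∀ y, e y = 1 ∨ e y = -1 := fun y => by
    simp only [he]
    split_ifs <;> simp
  have he2 : ∀ (x : Gen → ℍ[ℝ]) (h : XSol x) (q : ℍ[ℝ]) (j : ℤ) (s₁ s₂ s₃ s₄ : ℝ),
      ‖q‖ = 1 → IsStd h.th j s₁ s₂ s₃ s₄ →
        0 < e (H.ext (cj q x)) * (c * (FN j (s₂ * s₄) * FS j (s₂ * s₄)) * DD h.th H.w) ∧
          SignAt H.relY (H.ext (cj q x)) (e (H.ext (cj q x))) := fun x h q j s₁ s₂ s₃ s₄ hq hst =>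
    fin_e (H.ySol_ext (h.cj (qu_ne hq))) (hsg x h q j s₁ s₂ s₃ s₄ (qu_ne hq) hst)
  have hε : ∀ {θ : G →* Matrix (Fin 3) (Fin 3) ℝ} {j : ℤ} {s₁ s₂ s₃ s₄ : ℝ}, IsStd θ j s₁ s₂ s₃ s₄ →
      s₂ * s₄ = 1 ∨ s₂ * s₄ = -1 := fun h => by
    rcases h.h₂ with h2 | h2 <;> rcases h.h₄ with h4 | h4 <;> simp [h2, h4]
  obtain ⟨T, hT, hsum⟩ := vanish H.relY H.comm H.kill_relY V hV1 hV2 hV3 hV4
    (fun y hy => by
      obtain ⟨x₀, h₀, q, j, s₁, s₂, s₃, s₄, hq, rfl, h3, -⟩ := hZ y hy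
      intro h
      have hq0 := qu_ne hq
      change q * x₀ .t * q⁻¹ * (q * x₀ .u * q⁻¹) = q * x₀ .u * q⁻¹ * (q * x₀ .t * q⁻¹) at h
      simp only [mul_assoc, inv_mul_cancel_left₀ hq0] at h
      have h4 := mul_left_cancel₀ hq0 h
      simp only [← mul_assoc] at h4
      exact fin_not_comm h₀ h3 (mul_right_cancel₀ (inv_ne_zero hq0) h4))
    (fun y hy => hV5 y ((hV6 y).1 hy).2) e
    (fun y hy _ => by
      obtain ⟨x₀, h₀, q, j, s₁, s₂, s₃, s₄, hq, rfl, h3, -⟩ := hZ y hy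
      exact ⟨he1 _, (he2 x₀ h₀ q j s₁ s₂ s₃ s₄ hq h3).2⟩)
  rw [← Finset.sum_filter_add_sum_filter_not T fun y => 1 / 2 < (y (emb κ .r) ^ 6).re ^ 2] at hsum
  have hc2 : 0 < c * c := mul_self_pos.2 hc
  have hS2 : ∑ y ∈ T.filter fun y => ¬ 1 / 2 < (y (emb κ .r) ^ 6).re ^ 2, e y = 0 := by
    refine fin_sum _ e (fun y y' => ∃ x q, XSol x ∧ ‖q‖ = 1 ∧ y = H.ext x ∧ y' = H.ext (cj q (alZ x)))
      (fun y hy => ?_) ?_
    · rw [Finset.mem_filter, hT] at hy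
      obtain ⟨x₀, h₀, q, j, s₁, s₂, s₃, s₄, hq, rfl, h3, h4⟩ := hZ y hy.1.1
      have h5 := h₀.isStd_alZ h3
      obtain ⟨p, hp, hsl⟩ := exists_slicePair (fin_not_comm h₀.alZ h5)
      have h7 := hy.2
      rw [h6 x₀ q j hq h3.hj h4] at h7
      refine ⟨H.ext (cj p (alZ x₀)), ?_, ?_, cj q x₀, p * q⁻¹, h₀.cj (qu_ne hq),
        by rw [norm_mul, norm_inv, hp, hq, inv_one, mul_one], rfl, ?_⟩
      · rw [Finset.mem_filter, hT, h6 (alZ x₀) p j hp h3.hj h4]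
        exact ⟨⟨hZ' _ h₀.alZ p j hp h3.hj h4, hsl⟩, h7⟩
      · have a1 := (he2 x₀ h₀ q j _ _ _ _ hq h3).1
        have a2 := (he2 _ h₀.alZ p j _ _ _ _ hp h5).1
        have a3 := kmain2 H.w H.isUnit_w h3 h5
        have h8 := fin_not_dvd h3.hj (p := 5) (by norm_num) (by norm_num)
        have a4 := F_flip h3.hj (by omega) (hε h3)
        rw [mul_neg] at a2
        have a5 := mul_pos a1 a2
        have a6 := mul_neg_of_pos_of_neg (mul_pos hc2 a3) a4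
        rcases he1 (H.ext (cj q x₀)) with b1 | b1 <;> rcases he1 (H.ext (cj p (alZ x₀))) with b2 | b2 <;>
          rw [b1, b2] at a5 ⊢
        · exfalso; linarith
        · rw [neg_neg]
        · exfalso; linarith
      · rw [alZ_cj h₀.unit (qu_ne hq), fin_cj_cj, inv_mul_cancel_right₀ (qu_ne hq)]
    · rintro _ hy₁ _ hy₂ _ ⟨x₁, q₁, h₁, hq₁, rfl, rfl⟩ ⟨x₂, q₂, h₂, hq₂, rfl, h3⟩
      rw [Finset.mem_filter, hT] at hy₁ hy₂
      have hq : ‖q₁⁻¹ * q₂‖ = 1 := by rw [norm_mul, norm_inv, hq₁, hq₂, inv_one, mul_one]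
      have h4 : x₁ = cj (q₁⁻¹ * q₂) x₂ := by
        refine alZ_inj ?_
        rw [alZ_cj h₂.unit (qu_ne hq), ← fin_cj_cj, ← hinj h3, fin_cj_cj, inv_mul_cancel₀ (qu_ne hq₁),
          fin_cj_one]
      have h5 : SlicePair (x₂ .t) (x₂ .u) := hy₂.1.2
      have h7 : SlicePair (x₁ .t) (x₁ .u) := hy₁.1.2
      rw [h4] at h7 ⊢
      rcases h5.unique hq h7 with h8 | h8
      · rw [h8, fin_cj_one]
      · rw [h8, fin_cj_neg, fin_cj_one]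
  rw [hS2, add_zero] at hsum
  obtain ⟨x₁, h₁, h1s, h1r⟩ := exists_xSol
  obtain ⟨t₁, t₂, t₃, t₄, hst⟩ := h₁.isStd isCoprime_one_left h1s h1r
  obtain ⟨p, hp, hsl⟩ := exists_slicePair (fin_not_comm h₁ hst)
  have h9 : 0 < ∑ y ∈ T.filter fun y => 1 / 2 < (y (emb κ .r) ^ 6).re ^ 2,
      e (H.ext (cj p x₁)) * e y := by
    refine Finset.sum_pos (fun y hy => ?_) ⟨H.ext (cj p x₁), ?_⟩
    · rw [Finset.mem_filter, hT] at hy
      obtain ⟨x₀, h₀, q, j, s₁, s₂, s₃, s₄, hq, rfl, h3, h4⟩ := hZ y hy.1.1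
      have h7 := hy.2
      rw [h6 x₀ q j hq h3.hj h4] at h7
      have a1 := (he2 x₀ h₀ q j _ _ _ _ hq h3).1
      have a2 := (he2 x₁ h₁ p 1 _ _ _ _ hp hst).1
      have a3 := kmain1 H.w H.isUnit_w h3 hst h7 (.inl rfl)
      have a4 := mul_pos_of_neg_of_neg (F_neg h3.hj h7 (hε h3)) (F_neg hst.hj (.inl rfl) (hε hst))
      have a5 := mul_pos a1 a2
      have a6 := mul_pos (mul_pos hc2 a3) a4
      rcases he1 (H.ext (cj q x₀)) with b1 | b1 <;> rcases he1 (H.ext (cj p x₁)) with b2 | b2 <;>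
        rw [b1, b2] at a5 ⊢
      · norm_num
      · exfalso; linarith
      · exfalso; linarith
      · norm_num
    · rw [Finset.mem_filter, hT, h6 x₁ p 1 hp hst.hj h1r]
      exact ⟨⟨hZ' _ h₁ p 1 hp hst.hj h1r, hsl⟩, .inl rfl⟩
  rw [← Finset.mul_sum, hsum, mul_zero] at h9
  exact lt_irrefl _ h9

theorem stmt : Stmt := by
  classical
  obtain ⟨s, hs⟩ := exists_sph
  refine top_main gen rel lift_gen_surj ker_lift_gen s hs.cyc hs.split fun S R _ _ _ π rl h => ?_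
  obtain ⟨P⟩ := exists_pair hs h
  obtain ⟨H⟩ := P.exists_hAlg hs
  exact H.false hs

end Crest.Agent.R251
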