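import Crest.Agent.R251.Deg.Van
import Crest.Agent.R251.Deg.LocB

/-!
# Row 251: the signed count of twisted `SU(2)` solutions vanishes (interface `vanish`)

Generators `Gn ι`: `none = t`, `some none = u`, `some (some a)`; one relator less than generators.
The blueprint is in the task `R251 SUBLEAD Deg`.
-/

set_option autoImplicit false

open Matrix Quaternion Filter Topology

namespace Crest.Agent.R251

open Crest.Agent.Lib.GR

variable {ι : Type} [Fintype ι] [DecidableEq ι]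

/-- the sign does not depend on the gauge fixing rows -/
theorem SignAt.unique {rel : Option ι → FreeGroup (Gn ι)} {y : Gn ι → ℍ[ℝ]} (hy : UnitT y)
    (h : ∀ j, AdW y (rel j) = 1) {e e' : ℝ} (h₁ : SignAt rel y e) (h₂ : SignAt rel y e') : 0 < e * e' :=
  Deg.signAt_unique hy h h₁ h₂

theorem vanish (rel : Option ι → FreeGroup (Gn ι))
    (h0 : rel none ∈ commutator (FreeGroup (Gn ι))) (hk : ∀ j, kill ι (rel j) = 1)
    (V : Option ι → (Gn ι → ℍ[ℝ]) → ℍ[ℝ])
    (hV : ∀ j y, UnitT y → ContDiffAt ℝ 1 (V j) y)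
    (hVeq : ∀ j y (q : ℍ[ℝ]), UnitT y → ‖q‖ = 1 → V j (cj q y) = q * V j y * q⁻¹)
    (hVre : ∀ j y, UnitT y → (V j y).re = 0) (hVlt : ∀ j y, UnitT y → ‖V j y‖ < 1)
    (hnc : ∀ y, Zero rel V y → y none * y (some none) ≠ y (some none) * y none)
    (hloc : ∀ y, Zero rel V y → ∀ j, V j =ᶠ[𝓝 y] 0)
    (e : (Gn ι → ℍ[ℝ]) → ℝ)
    (he : ∀ y, Zero rel V y → Slice y → (e y = 1 ∨ e y = -1) ∧ SignAt rel y (e y)) :
    ∃ T : Finset (Gn ι → ℍ[ℝ]), (∀ y, y ∈ T ↔ Zero rel V y ∧ Slice y) ∧ ∑ y ∈ T, e y = 0 := by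
  let H : ℝ → Deg.Sys ι := fun s j y => sg j • ev y (rel j) + s • V j y
  have hsg : ∀ j : Option ι, sg j = 1 ∨ sg j = -1 := fun j => by cases j <;> simp [sg]
  have hsg0 : ∀ j : Option ι, sg j ≠ 0 := fun j => by rcases hsg j with h | h <;> simp [h]
  have hw : ∀ j, Deg.SM fun y : Deg.Tup ι => sg j • ev y (rel j) := fun j => (Deg.SM.word (rel j)).smul (hsg0 j)
  have hH : Deg.HAdm H := by
    refine ⟨fun j => ⟨fun s _ y hy => ?_, fun s hs => ⟨fun y hy => ?_, fun y q hy hq => ?_, fun y hy h => ?_⟩⟩,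
      fun s _ y hy ha => ?_⟩
    · exact (((hw j).diff y hy).comp (s, y) contDiffAt_snd).add
        (contDiffAt_fst.smul ((hV j y hy).comp (s, y) contDiffAt_snd))
    · exact ((hw j).diff y hy).add ((hV j y hy).const_smul s)
    · have := (hw j).equi y q hy hq
      simp only [H] at this ⊢
      rw [this, hVeq j y q hy hq, mul_add, add_mul, mul_smul_comm s, smul_mul_assoc s]
    · have h1 : ‖sg j • ev y (rel j)‖ = 1 := by
        rw [norm_smul, norm_ev_of_unitT hy]
        rcases hsg j with h | h <;> simp [h]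
      have h2 : ‖s • V j y‖ < 1 := by
        rw [norm_smul, Real.norm_eq_abs, abs_of_nonneg hs.1]
        exact (mul_le_of_le_one_left (norm_nonneg _) hs.2).trans_lt (hVlt j y hy)
      rw [eq_neg_of_add_eq_zero_left h, norm_neg] at h1
      exact h2.ne h1
    · simp [H, sg, Deg.ev_eq_one_of_abel hy ha h0, hVre none y hy]
  have hZ : ∀ y, Zero rel V y ↔ UnitT y ∧ ∀ j, Deg.Ng (H 1 j y) := fun y => by
    refine and_congr_right fun hy => forall_congr' fun j => ?_
    simp [H, Deg.Ng, Deg.im3_eq_zero, hVre j y hy]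
  have hH0 : H 0 = Deg.sys (rel none) (fun _ => -1) fun a => rel (some a) := by
    funext j y
    cases j <;> simp [H, Deg.sys, sg]
  have h1 := hH.adm (Set.right_mem_Icc.2 zero_le_one)
  have hg : Deg.Good (H 1) := fun y hy hj => hnc y ((hZ y).2 ⟨hy, hj⟩)
  have hc : Deg.cnt (H 1) = 0 := by
    rw [← Deg.NN_good h1 hg, ← Deg.NN_homotopy hH, hH0]
    exact Deg.NN_sys h0 (hk none) (fun _ => Or.inr rfl) fun a => Deg.expo_of_kill (hk (some a))
  have hZs : ∀ y, y ∈ Deg.Zs (H 1) ↔ Zero rel V y ∧ Slice y := fun y => by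
    rw [hZ]
    exact ⟨fun h => ⟨⟨h.1, h.2.2⟩, h.2.1⟩, fun h => ⟨h.1.1, h.2, h.1.2⟩⟩
  obtain ⟨ε, hε, hl⟩ := Deg.loc ι
  have hpos : ∀ y ∈ Deg.Zs (H 1), 0 < ε * e y * (fderiv ℝ (Deg.FF (H 1)) y).det := fun y hy => by
    have hy' := (hZs y).1 hy
    refine hl rel (H 1) y (e y) hy (fun j => ?_) (he y hy'.1 hy'.2).2
    filter_upwards [hloc y hy'.1 j] with z hz
    simp [H, hz]
  obtain ⟨T, hT, hsum⟩ := Deg.deg_regular (Deg.iso_FF h1.sm hg) fun y hy h => by
    have := hpos y hy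
    rw [h, mul_zero] at this
    exact lt_irrefl _ this
  refine ⟨T, fun y => (hT y).trans (hZs y), ?_⟩
  have hs : ∀ y ∈ T, (SignType.sign (fderiv ℝ (Deg.FF (H 1)) y).det : ℝ) = SignType.sign ε * e y := fun y hy => by
    have hy' := (hT y).1 hy
    have h2 := hpos y hy'
    have h3 := (he y ((hZs y).1 hy').1 ((hZs y).1 hy').2).1
    generalize (fderiv ℝ (Deg.FF (H 1)) y).det = d at h2
    rcases h3 with h3 | h3 <;> rw [h3] at h2 ⊢ <;> rcases hε.lt_or_gt with h4 | h4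
    · rw [sign_neg h4, sign_neg (by nlinarith : d < 0)]; simp
    · rw [sign_pos h4, sign_pos (by nlinarith : 0 < d)]; simp
    · rw [sign_neg h4, sign_pos (by nlinarith : 0 < d)]; simp
    · rw [sign_pos h4, sign_neg (by nlinarith : d < 0)]; simp
  rw [Deg.cnt, hsum, Finset.sum_congr rfl hs, ← Finset.mul_sum] at hc
  refine (mul_eq_zero.1 hc).resolve_left ?_
  rcases hε.lt_or_gt with h4 | h4
  · rw [sign_neg h4]; simp
  · rw [sign_pos h4]; simp

end Crest.Agent.R251
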