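import Crest.Agent.R251.Sph
import Crest.Agent.R251.Blow
import Crest.Agent.R251.Vanish

/-!
# Row 251: normalised realisations

From a presentation that realises `X` (`Realises gen rel s π rl`) we get one on generators `t, u, σ, ρ, x_a (a : κ)`, with all
`x_a` trivial in `F(t, u)`, whose first relator lies in the commutator subgroup, and an invertible matrix comparing the
second chain groups.

Recipe for `exists_pair` (Tietze): generators `Gen ⊔ S`; `j : FreeGroup Bool →* FreeGroup Gen` (`true ↦ wt`, `false ↦ wu`), `W⁰ e` a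
word in `Gen` for `π e`, `W e = W⁰ e * (j (fr (π e)))⁻¹`, so `fr (lift gen (W e)) = 1`; `β e = x_e * emb (j (fr (π e)))` represents
`π e`; `V x ∈ F(S)` a word for `gen x`; `relY` = the `lift β (rl r)` and the `emb x * (lift β (V x))⁻¹`.  Both families of relators
normally generate `ker (lift piY)`.  Chain level: `φ = ι ∘ ψ ∘ ρ` with `ρ₁ : ZG^Gn → ZG^S` the Fox matrix of the retraction
`x_e ↦ e * (V-word of j (fr (π e)))⁻¹`, `emb x ↦ V x`, `ρ₂` kills the new relators, `ι` the inclusion; `1 - φ₁` has rows that are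
cycles, so `1 - φ₁ = h * foxM relX` (`exists_of_cycle`, `exists_of_mem_normalClosure`), `ψ' = φ₂ + foxM relY * h`.
Cycles of `relY` vanish on the new relators, cycles of `relX` vanish on `κ`.  `(x, κ) ↦ x ψ' + κ s` is bijective (five lemma by hand,
`s * L = 1`), so its matrix has a two-sided inverse; apply `eps` to compare cardinalities.

Recipe for `exists_hAlg` (slides): add a generator `z` with `W z = 1` and the relator `z` on both sides.  `E = eps w` is an invertible
integer matrix, `ζ = (29, 30, 30, 0, 0; 0)` on `(r, t, u, B, Z; κ)` satisfies `ζ * eps d = 0` (exponent rows: `r : ρ^30`,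
`t : σ ρ^-15`, `u : σ^-1 ρ^-14`), `c' = (29, -28, 0, 0, 0; 0)` satisfies `ζ · c' = 1` and `eps s * c' = 0`.  `(m, _) = ζ E⁻¹`,
`(c, 0) = E c'`, `m · c = 1`, `c i ≡ eps (ψ i (inl r))` mod 2.  New relators `r₀ = ∏ r_i ^ m_i` (any order; exponent sums zero so
`mem_commutator_of_eps`) and `r_i' = r_i * r₀ ^ (-c i) * z ^ (c i)`; the integer matrix `[[1 - c mᵀ, c], [mᵀ, 0]]` is an involution;
modulo the new relators `r_i = z ^ (-c i)`, `1 = r₀ = z⁻¹`.  `eps (ψ r₀ (inl r)) = Σ m_i eps (ψ i (inl r)) ≡ m · c = 1`.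
-/

set_option autoImplicit false

open Matrix

namespace Crest.Agent.R251

/-- the generators of `G` among the normalised generators -/
def emb (κ : Type) : Gen → Gn (Fin 2 ⊕ κ)
  | .t => none
  | .u => some none
  | .s => some (some (.inl 0))
  | .r => some (some (.inl 1))

/-- the additional generators -/
def oth {κ : Type} (a : κ) : Gn (Fin 2 ⊕ κ) := some (some (.inr a))

/-- extension of a function on `Gen` by a function on the additional generators -/
def extG {κ α : Type} (x : Gen → α) (f : κ → α) : Gn (Fin 2 ⊕ κ) → α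
  | none => x .t
  | some none => x .u
  | some (some (.inl i)) => if i = 0 then x .s else x .r
  | some (some (.inr a)) => f a

theorem extG_emb {κ α : Type} (x : Gen → α) (f : κ → α) (g : Gen) : extG x f (emb κ g) = x g := by
  cases g <;> rfl

theorem extG_oth {κ α : Type} (x : Gen → α) (f : κ → α) (a : κ) : extG x f (oth a) = f a := rfl

theorem extG_eta {κ α : Type} (y : Gn (Fin 2 ⊕ κ) → α) : extG (fun g => y (emb κ g)) (fun a => y (oth a)) = y := by
  funext g
  rcases g with _ | _ | i | a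
  · rfl
  · rfl
  · fin_cases i <;> rfl
  · rfl

/-- the normalised generators in `G` -/
def piY {κ : Type} (W : κ → FreeGroup Gen) : Gn (Fin 2 ⊕ κ) → G :=
  extG gen fun a => FreeGroup.lift gen (W a)

/-- the expanded standard presentation -/
def relX {κ : Type} (W : κ → FreeGroup Gen) : Rel ⊕ κ → FreeGroup (Gn (Fin 2 ⊕ κ))
  | .inl r => FreeGroup.map (emb κ) (rel r)
  | .inr a => .of (oth a) * (FreeGroup.map (emb κ) (W a))⁻¹

/-- the spheres in the expanded presentation -/
noncomputable def sX (κ : Type) (s : Matrix (Fin 2) Rel (ZG G)) : Matrix (Fin 2) (Rel ⊕ κ) (ZG G) :=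
  fromCols s 0

theorem gn_cases {κ : Type} (g : Gn (Fin 2 ⊕ κ)) : (∃ x, g = emb κ x) ∨ ∃ a, g = oth a := by
  rcases g with _ | _ | i | a
  · exact .inl ⟨.t, rfl⟩
  · exact .inl ⟨.u, rfl⟩
  · fin_cases i
    · exact .inl ⟨.s, rfl⟩
    · exact .inl ⟨.r, rfl⟩
  · exact .inr ⟨a, rfl⟩

theorem emb_inj (κ : Type) : Function.Injective (emb κ) := by
  intro x y h
  cases x <;> cases y <;> first | rfl | (simp [emb] at h)

theorem emb_ne_oth {κ : Type} (x : Gen) (a : κ) : emb κ x ≠ oth a := by
  cases x <;> simp [emb, oth]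

theorem oth_inj {κ : Type} : Function.Injective (oth : κ → Gn (Fin 2 ⊕ κ)) := by
  intro a b h
  simpa [oth] using h

theorem lift_extG_map {κ M : Type} [Group M] (x : Gen → M) (f : κ → M) (w : FreeGroup Gen) :
    FreeGroup.lift (extG x f) (FreeGroup.map (emb κ) w) = FreeGroup.lift x w := by
  have : (FreeGroup.lift (extG x f)).comp (FreeGroup.map (emb κ)) = FreeGroup.lift x := by
    ext1 g
    simp [extG_emb]
  exact DFunLike.congr_fun this w

theorem lift_piY_map {κ : Type} (W : κ → FreeGroup Gen) (w : FreeGroup Gen) :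
    FreeGroup.lift (piY W) (FreeGroup.map (emb κ) w) = FreeGroup.lift gen w :=
  lift_extG_map _ _ w

theorem piY_surj {κ : Type} (W : κ → FreeGroup Gen) : Function.Surjective (FreeGroup.lift (piY W)) := by
  intro g
  obtain ⟨w, rfl⟩ := lift_gen_surj g
  exact ⟨_, lift_piY_map W w⟩

theorem lift_piY_relX {κ : Type} (W : κ → FreeGroup Gen) (i : Rel ⊕ κ) :
    FreeGroup.lift (piY W) (relX W i) = 1 := by
  rcases i with r | a
  · rw [relX, lift_piY_map, lift_gen_rel]
  · rw [relX, map_mul, map_inv, lift_piY_map, FreeGroup.lift_apply_of, piY, extG_oth, mul_inv_cancel]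

/-- a criterion for the kernel of a presentation on more generators -/
theorem ker_eq_of_retract {T S R R' Γ : Type} [Group Γ] (p : T → Γ) (π : S → Γ) (rl : R → FreeGroup S)
    (hk : (FreeGroup.lift π).ker = Subgroup.normalClosure (Set.range rl)) (rT : R' → FreeGroup T)
    (h1 : ∀ i, FreeGroup.lift p (rT i) = 1) (β : FreeGroup S →* FreeGroup T) (ρ : T → FreeGroup S)
    (hρ : ∀ t, FreeGroup.lift π (ρ t) = p t)
    (hβ : ∀ r, β (rl r) ∈ Subgroup.normalClosure (Set.range rT))
    (hq : ∀ t, (QuotientGroup.mk' (Subgroup.normalClosure (Set.range rT))) (β (ρ t)) =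
      (QuotientGroup.mk' (Subgroup.normalClosure (Set.range rT))) (.of t)) :
    (FreeGroup.lift p).ker = Subgroup.normalClosure (Set.range rT) := by
  refine le_antisymm (fun w hw => ?_) (Subgroup.normalClosure_le_normal ?_)
  · have e1 : ((QuotientGroup.mk' (Subgroup.normalClosure (Set.range rT))).comp β).comp (FreeGroup.lift ρ) =
        QuotientGroup.mk' (Subgroup.normalClosure (Set.range rT)) := by
      ext1 t
      simpa using hq t
    have e2 : (FreeGroup.lift π).comp (FreeGroup.lift ρ) = FreeGroup.lift p := by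
      ext1 t
      simpa using hρ t
    have h2 : FreeGroup.lift ρ w ∈ Subgroup.normalClosure (Set.range rl) := by
      rw [← hk, MonoidHom.mem_ker]
      exact (DFunLike.congr_fun e2 w).trans hw
    have h3 : Subgroup.normalClosure (Set.range rl) ≤ (Subgroup.normalClosure (Set.range rT)).comap β :=
      Subgroup.normalClosure_le_normal (by rintro _ ⟨r, rfl⟩; exact hβ r)
    have h4 := DFunLike.congr_fun e1 w
    rw [← QuotientGroup.eq_one_iff]
    refine h4.symm.trans ?_
    exact (QuotientGroup.eq_one_iff _).2 (h3 h2)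
  · rintro _ ⟨i, rfl⟩
    exact h1 i

theorem ker_piY {κ : Type} (W : κ → FreeGroup Gen) :
    (FreeGroup.lift (piY W)).ker = Subgroup.normalClosure (Set.range (relX W)) := by
  refine ker_eq_of_retract (piY W) gen rel ker_lift_gen (relX W) (lift_piY_relX W) (FreeGroup.map (emb κ))
    (extG FreeGroup.of W) (fun t => ?_) (fun r => Subgroup.subset_normalClosure ⟨.inl r, rfl⟩) (fun t => ?_)
  · rcases gn_cases t with ⟨x, rfl⟩ | ⟨a, rfl⟩
    · simp [piY, extG_emb]
    · simp [piY, extG_oth]
  · rcases gn_cases t with ⟨x, rfl⟩ | ⟨a, rfl⟩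
    · simp [extG_emb]
    · rw [extG_oth, eq_comm, ← mul_inv_eq_one, ← map_inv, ← map_mul]
      exact (QuotientGroup.eq_one_iff _).2 (Subgroup.subset_normalClosure ⟨.inr a, rfl⟩)

theorem fox_map_emb {κ : Type} [DecidableEq κ] (W : κ → FreeGroup Gen) (w : FreeGroup Gen) :
    fox (piY W) (FreeGroup.map (emb κ) w) = extG (fox gen w) 0 := by
  have hz : ∀ (v v' : Gen → ZG G) (c : ZG G),
      (extG (v + c • v') 0 : Gn (Fin 2 ⊕ κ) → ZG G) = extG v 0 + c • extG v' 0 := by
    intro v v' c
    funext g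
    rcases gn_cases g with ⟨x, rfl⟩ | ⟨a, rfl⟩ <;> simp [extG_emb, extG_oth]
  induction w using FreeGroup.induction_on with
  | C1 =>
    rw [map_one, fox_one, fox_one]
    funext g
    rcases gn_cases g with ⟨x, rfl⟩ | ⟨a, rfl⟩ <;> simp [extG_emb, extG_oth]
  | of x =>
    rw [FreeGroup.map.of, fox_of, fox_of]
    funext g
    rcases gn_cases g with ⟨y, rfl⟩ | ⟨a, rfl⟩
    · rw [extG_emb]
      by_cases h : y = x
      · subst h; simp
      · rw [Pi.single_eq_of_ne h, Pi.single_eq_of_ne fun h' => h (emb_inj κ h')]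
    · rw [extG_oth, Pi.single_eq_of_ne (emb_ne_oth x a).symm]; rfl
  | inv_of x ih =>
    rw [map_inv, fox_inv, fox_inv, ih, lift_piY_map]
    funext g
    rcases gn_cases g with ⟨x, rfl⟩ | ⟨a, rfl⟩ <;> simp [extG_emb, extG_oth]
  | mul x y ihx ihy => rw [map_mul, fox_mul, fox_mul, ihx, ihy, lift_piY_map, hz]

/-- Fox matrix of the expanded presentation -/
theorem foxM_relX_inl {κ : Type} [DecidableEq κ] (W : κ → FreeGroup Gen) (r : Rel) :
    foxM (piY W) (relX W) (.inl r) = extG (d2 r) 0 :=
  fox_map_emb W (rel r)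

theorem foxM_relX_inr {κ : Type} [DecidableEq κ] (W : κ → FreeGroup Gen) (a : κ) :
    foxM (piY W) (relX W) (.inr a) = extG (-fox gen (W a)) (Pi.single a 1) := by
  change fox (piY W) (.of (oth a) * (FreeGroup.map (emb κ) (W a))⁻¹) = _
  rw [fox_mul, fox_inv, fox_of, fox_map_emb, lift_piY_map, FreeGroup.lift_apply_of, piY, extG_oth, smul_neg,
    smul_smul, ← fox_og_mul, mul_inv_cancel, fox_og_one, one_smul]
  funext g
  rcases gn_cases g with ⟨x, rfl⟩ | ⟨b, rfl⟩
  · simp [extG_emb, Pi.single_eq_of_ne (emb_ne_oth x a)]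
  · by_cases h : b = a
    · subst h; simp [extG_oth]
    · simp [extG_oth, Pi.single_eq_of_ne h, Pi.single_eq_of_ne fun h' => h (oth_inj h')]

/-- exactness of the Cayley complex in degree one -/
theorem exists_vecMul_of_cycle {T R Γ : Type} [Group Γ] [Fintype T] [DecidableEq T] [Fintype R] (p : T → Γ)
    (hs : Function.Surjective (FreeGroup.lift p)) (rT : R → FreeGroup T)
    (hk : (FreeGroup.lift p).ker = Subgroup.normalClosure (Set.range rT)) (x : T → ZG Γ)
    (hx : ∑ t, x t * (og (p t) - 1) = 0) : ∃ y : R → ZG Γ, x = y ᵥ* foxM p rT := by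
  obtain ⟨n, hn, rfl⟩ := exists_of_cycle p hs x hx
  refine exists_of_mem_normalClosure p rT (fun r => ?_) n (hk ▸ hn)
  have : rT r ∈ (FreeGroup.lift p).ker := hk ▸ Subgroup.subset_normalClosure ⟨r, rfl⟩
  exact this

theorem vecMul_bd {T R Γ : Type} [Group Γ] [Fintype T] [Fintype R] (M : Matrix R T (ZG Γ)) (y : R → ZG Γ)
    (c : T → ZG Γ) : ∑ t, (y ᵥ* M) t * c t = ∑ r, y r * ∑ t, M r t * c t := by
  simp only [Matrix.vecMul, dotProduct, Finset.sum_mul, Finset.mul_sum, mul_assoc]
  exact Finset.sum_comm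

/-- a bijective right multiplication has a two-sided inverse matrix -/
theorem exists_inv_of_bij {A m n : Type} [Ring A] [Fintype m] [Fintype n] [DecidableEq m] [DecidableEq n]
    (M : Matrix m n A) (hi : ∀ x, x ᵥ* M = 0 → x = 0) (hs : ∀ z, ∃ x, x ᵥ* M = z) :
    ∃ M' : Matrix n m A, M * M' = 1 ∧ M' * M = 1 := by
  choose f hf using hs
  have h2 : (Matrix.of fun i => f ((1 : Matrix n n A) i)) * M = 1 := by
    ext i k
    exact congrFun (hf ((1 : Matrix n n A) i)) k
  refine ⟨_, ?_, h2⟩
  have h3 : (M * (Matrix.of fun i => f ((1 : Matrix n n A) i)) - 1) * M = 0 := by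
    rw [Matrix.sub_mul, Matrix.mul_assoc, h2, Matrix.mul_one, Matrix.one_mul, sub_self]
  rw [← sub_eq_zero]
  ext i k
  exact congrFun (hi _ (congrFun h3 i)) k

/-- a presentation on the normalised generators that realises `X` -/
structure Pair (s : Matrix (Fin 2) Rel (ZG G)) (κ R : Type) [Fintype κ] [DecidableEq κ] [Fintype R]
    [DecidableEq R] where
  W : κ → FreeGroup Gen
  fr_W : ∀ a, fr (FreeGroup.lift gen (W a)) = 1
  relY : R → FreeGroup (Gn (Fin 2 ⊕ κ))
  ker_eq : (FreeGroup.lift (piY W)).ker = Subgroup.normalClosure (Set.range relY)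
  ψ : Matrix R (Rel ⊕ κ) (ZG G)
  hψ : ψ * foxM (piY W) (relX W) = foxM (piY W) relY
  w' : Matrix (Rel ⊕ κ) (R ⊕ Fin 2) (ZG G)
  mul_w' : fromRows ψ (sX κ s) * w' = 1
  w'_mul : w' * fromRows ψ (sX κ s) = 1

theorem exists_pair {s : Matrix (Fin 2) Rel (ZG G)} (hs : IsSph s) {S R : Type} [Fintype S] [DecidableEq S]
    [Fintype R] [DecidableEq R] {π : S → G} {rl : R → FreeGroup S} (h : Realises gen rel s π rl) :
    Nonempty (Pair s S (R ⊕ Gen)) := by
  obtain ⟨ψ₁, ψ₂, h1, h2, hinj, hsur⟩ := h.chain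
  obtain ⟨L, hL⟩ := hs.split
  choose W0 hW0 using fun e => lift_gen_surj (π e)
  choose V hV using fun x => h.surj (gen x)
  let jw : FreeGroup Bool →* FreeGroup Gen := FreeGroup.lift fun b => if b then wt else wu
  have hjw : ∀ w, fr (FreeGroup.lift gen (jw w)) = w := by
    have : (fr.comp (FreeGroup.lift gen)).comp jw = MonoidHom.id _ := by
      ext1 b
      cases b
      · simp [jw, lift_wu_pa, fr_gu]
      · simp [jw, lift_wt_pa, fr_gt]
    exact fun w => DFunLike.congr_fun this w
  let J : S → FreeGroup Gen := fun e => jw (fr (π e))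
  let W : S → FreeGroup Gen := fun e => W0 e * (J e)⁻¹
  have hW : ∀ e, FreeGroup.lift gen (W e) = π e * (FreeGroup.lift gen (J e))⁻¹ := fun e => by
    simp only [W, map_mul, map_inv, hW0]
  let β : S → FreeGroup (Gn (Fin 2 ⊕ S)) := fun e => .of (oth e) * FreeGroup.map (emb S) (J e)
  have hβ : ∀ e, FreeGroup.lift (piY W) (β e) = π e := fun e => by
    simp only [β, map_mul, lift_piY_map, FreeGroup.lift_apply_of]
    rw [piY, extG_oth, hW, inv_mul_cancel_right]
  have hβ' : (fun e => FreeGroup.lift (piY W) (β e)) = π := funext hβ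
  have hβl : ∀ w, FreeGroup.lift (piY W) (FreeGroup.lift β w) = FreeGroup.lift π w := by
    have : (FreeGroup.lift (piY W)).comp (FreeGroup.lift β) = FreeGroup.lift π := by
      ext1 e
      simpa using hβ e
    exact fun w => DFunLike.congr_fun this w
  have hVl : ∀ w, FreeGroup.lift π (FreeGroup.lift V w) = FreeGroup.lift gen w := by
    have : (FreeGroup.lift π).comp (FreeGroup.lift V) = FreeGroup.lift gen := by
      ext1 e
      simpa using hV e
    exact fun w => DFunLike.congr_fun this w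
  let ρ : Gn (Fin 2 ⊕ S) → FreeGroup S := extG V fun e => .of e * (FreeGroup.lift V (J e))⁻¹
  have hρ : ∀ t, FreeGroup.lift π (ρ t) = piY W t := fun t => by
    rcases gn_cases t with ⟨x, rfl⟩ | ⟨a, rfl⟩
    · simp only [ρ, piY, extG_emb, hV]
    · simp only [ρ, piY, extG_oth, map_mul, map_inv, hVl, hW, FreeGroup.lift_apply_of]
  have hρβ : ∀ e, FreeGroup.lift ρ (β e) = .of e := fun e => by
    simp only [β, map_mul, FreeGroup.lift_apply_of, ρ, lift_extG_map, extG_oth, inv_mul_cancel_right]
  let relY : R ⊕ Gen → FreeGroup (Gn (Fin 2 ⊕ S)) :=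
    Sum.elim (fun r => FreeGroup.lift β (rl r)) fun x => .of (emb S x) * (FreeGroup.lift β (V x))⁻¹
  have hrl : ∀ r, FreeGroup.lift π (rl r) = 1 := fun r => by
    have : rl r ∈ (FreeGroup.lift π).ker := h.ker_eq ▸ Subgroup.subset_normalClosure ⟨r, rfl⟩
    exact this
  have hY1 : ∀ i, FreeGroup.lift (piY W) (relY i) = 1 := by
    rintro (r | x)
    · simp only [relY, Sum.elim_inl, hβl, hrl]
    · simp only [relY, Sum.elim_inr, map_mul, map_inv, hβl, hV, FreeGroup.lift_apply_of]
      rw [piY, extG_emb, mul_inv_cancel]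
  have hkY : (FreeGroup.lift (piY W)).ker = Subgroup.normalClosure (Set.range relY) := by
    have hx : ∀ x, (QuotientGroup.mk' (Subgroup.normalClosure (Set.range relY))) (FreeGroup.lift β (V x)) =
        (QuotientGroup.mk' (Subgroup.normalClosure (Set.range relY))) (.of (emb S x)) := fun x => by
      rw [eq_comm, ← mul_inv_eq_one, ← map_inv, ← map_mul]
      exact (QuotientGroup.eq_one_iff _).2 (Subgroup.subset_normalClosure ⟨.inr x, rfl⟩)
    have hw : ∀ w, (QuotientGroup.mk' (Subgroup.normalClosure (Set.range relY)))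
        (FreeGroup.lift β (FreeGroup.lift V w)) =
        (QuotientGroup.mk' (Subgroup.normalClosure (Set.range relY))) (FreeGroup.map (emb S) w) := by
      have : ((QuotientGroup.mk' (Subgroup.normalClosure (Set.range relY))).comp (FreeGroup.lift β)).comp
          (FreeGroup.lift V) =
          (QuotientGroup.mk' (Subgroup.normalClosure (Set.range relY))).comp (FreeGroup.map (emb S)) := by
        ext1 x
        simpa using hx x
      exact fun w => DFunLike.congr_fun this w
    refine ker_eq_of_retract (piY W) π rl h.ker_eq relY hY1 (FreeGroup.lift β) ρ hρ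
      (fun r => Subgroup.subset_normalClosure ⟨.inl r, rfl⟩) fun t => ?_
    rcases gn_cases t with ⟨x, rfl⟩ | ⟨a, rfl⟩
    · simp only [ρ, extG_emb, hx]
    · simp only [ρ, extG_oth, map_mul, map_inv, hw, FreeGroup.lift_apply_of, β, mul_inv_cancel_right]
  -- matrices
  let Bm : Matrix S (Gn (Fin 2 ⊕ S)) (ZG G) := foxM (piY W) β
  let Em : Matrix Gen (Gn (Fin 2 ⊕ S)) (ZG G) := Matrix.of fun x => extG (Pi.single x 1) 0
  let Rm : Matrix (Gn (Fin 2 ⊕ S)) S (ZG G) := foxM π ρ
  let Vm : Matrix Gen S (ZG G) := foxM π V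
  have hEm : ∀ v : Gen → ZG G, v ᵥ* Em = extG v 0 := fun v => by
    funext g
    rcases gn_cases g with ⟨x, rfl⟩ | ⟨a, rfl⟩
    · simp [Em, Matrix.vecMul, dotProduct, extG_emb, Pi.single_apply]
    · simp [Em, Matrix.vecMul, dotProduct, extG_oth]
  have hBfox : ∀ w, fox (piY W) (FreeGroup.lift β w) = fox π w ᵥ* Bm := fun w => by
    rw [fox_lift, hβ']; rfl
  have hRfox : ∀ w, fox π (FreeGroup.lift ρ w) = fox (piY W) w ᵥ* Rm := fun w => by
    rw [fox_lift, show (fun t => FreeGroup.lift π (ρ t)) = piY W from funext hρ]; rfl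
  have hBR : Bm * Rm = 1 := by
    ext1 e e'
    have := congrFun (hRfox (β e)) e'
    rw [hρβ, fox_of, Pi.single_apply] at this
    rw [Matrix.one_apply, if_congr eq_comm rfl rfl, this]; rfl
  have hER : Em * Rm = Vm := by
    ext1 x e'
    have := congrFun (hRfox (FreeGroup.map (emb S) (.of x))) e'
    rw [fox_map_emb, fox_of, lift_extG_map, FreeGroup.lift_apply_of] at this
    exact this.symm
  have hBoth : ∀ (v : S → ZG G) (e : S), (v ᵥ* Bm) (oth e) = v e := fun v e => by
    have : ∀ e', Bm e' (oth e) = if e' = e then 1 else 0 := fun e' => by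
      change fox (piY W) (.of (oth e') * FreeGroup.map (emb S) (J e')) (oth e) = _
      rw [fox_mul, fox_of, fox_map_emb]
      by_cases h' : e' = e
      · subst h'; simp [extG_oth]
      · simp [extG_oth, h', Pi.single_eq_of_ne fun h'' : oth e = oth e' => h' (oth_inj h'').symm]
    simp [Matrix.vecMul, dotProduct, this]
  have hdYl : ∀ r, foxM (piY W) relY (.inl r) = (foxM π rl * Bm) r := fun r => hBfox (rl r)
  have hdYr : ∀ x, foxM (piY W) relY (.inr x) = (Em - Vm * Bm) x := fun x => by
    change fox (piY W) (.of (emb S x) * (FreeGroup.lift β (V x))⁻¹) = _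
    rw [fox_mul, fox_inv, hβl, hV, FreeGroup.lift_apply_of, piY, extG_emb, smul_neg, smul_smul, ← fox_og_mul,
      mul_inv_cancel, fox_og_one, one_smul, ← piY, hBfox, ← FreeGroup.map.of, fox_map_emb, fox_of, ← sub_eq_add_neg]
    rfl
  have hdY : foxM (piY W) relY = fromRows (foxM π rl * Bm) (Em - Vm * Bm) := by
    ext1 i k
    rcases i with r | x
    · exact congrFun (hdYl r) k
    · exact congrFun (hdYr x) k
  have hdX : ∀ v : Rel → ZG G, Sum.elim v 0 ᵥ* foxM (piY W) (relX W) = (v ᵥ* d2) ᵥ* Em := fun v => by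
    rw [hEm]
    funext g
    simp only [Matrix.vecMul, dotProduct, Fintype.sum_sum_type, Sum.elim_inl, Sum.elim_inr, Pi.zero_apply,
      zero_mul, Finset.sum_const_zero, add_zero, foxM_relX_inl]
    rcases gn_cases g with ⟨x, rfl⟩ | ⟨a, rfl⟩ <;> simp [extG_emb, extG_oth, Matrix.vecMul, dotProduct]
  have hEbd : ∀ x, ∑ t, Em x t * (og (piY W t) - 1) = og (gen x) - 1 := fun x => by
    have := fox_fund (piY W) (FreeGroup.map (emb S) (.of x))
    rwa [fox_map_emb, fox_of, lift_piY_map, FreeGroup.lift_apply_of] at this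
  have hh : ∀ e, ∃ y : Rel ⊕ S → ZG G, (Bm - ψ₁ * Em) e = y ᵥ* foxM (piY W) (relX W) := fun e => by
    refine exists_vecMul_of_cycle _ (piY_surj W) _ (ker_piY W) _ ?_
    have e1 : ∑ t, Bm e t * (og (piY W t) - 1) = og (π e) - 1 := by
      have := fox_fund (piY W) (β e)
      rwa [hβ] at this
    have e2 : ∑ t, (ψ₁ * Em) e t * (og (piY W t) - 1) = og (π e) - 1 := by
      have := vecMul_bd Em (ψ₁ e) fun t => og (piY W t) - 1
      simp only [hEbd, h1] at this
      exact this
    simp only [Matrix.sub_apply, sub_mul, Finset.sum_sub_distrib] at e1 e2 ⊢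
    rw [e1, e2, sub_self]
  choose hm hhm using hh
  have hk : ∀ x, ∃ y : Rel ⊕ S → ZG G, foxM (piY W) relY (.inr x) = y ᵥ* foxM (piY W) (relX W) := fun x =>
    exists_of_mem_normalClosure (piY W) (relX W) (lift_piY_relX W) _ (ker_piY W ▸ hY1 (.inr x))
  choose km hkm using hk
  let ψ : Matrix (R ⊕ Gen) (Rel ⊕ S) (ZG G) :=
    fromRows (fromCols ψ₂ 0 + foxM π rl * Matrix.of hm) (Matrix.of km)
  have hhm' : Matrix.of hm * foxM (piY W) (relX W) = Bm - ψ₁ * Em := by
    ext1 e k
    exact (congrFun (hhm e) k).symm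
  have hψ : ψ * foxM (piY W) (relX W) = foxM (piY W) relY := by
    have e1 : fromCols ψ₂ (0 : Matrix R S (ZG G)) * foxM (piY W) (relX W) = ψ₂ * d2 * Em := by
      ext1 r k
      exact congrFun (hdX (ψ₂ r)) k
    ext1 i k
    rcases i with r | x
    · have : (fromCols ψ₂ (0 : Matrix R S (ZG G)) + foxM π rl * Matrix.of hm) * foxM (piY W) (relX W) = foxM π rl * Bm := by
        rw [Matrix.add_mul, e1, Matrix.mul_assoc (foxM π rl), hhm', Matrix.mul_sub, ← Matrix.mul_assoc (foxM π rl), h2,
          d2]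
        abel
      rw [hdYl, ← this]; rfl
    · exact (congrFun (hkm x) k).symm
  have hsX : sX S s * foxM (piY W) (relX W) = 0 := by
    ext1 i k
    have := congrFun (hdX (s i)) k
    have h0 : s i ᵥ* d2 = 0 := congrFun hs.cyc i
    rw [h0, Matrix.zero_vecMul] at this
    exact this
  have hΦ : ∀ (x₁ : R → ZG G) (κ : Fin 2 → ZG G), x₁ ᵥ* foxM π rl = 0 →
      Sum.elim (Sum.elim x₁ 0) κ ᵥ* fromRows ψ (sX S s) = Sum.elim (x₁ ᵥ* ψ₂ + κ ᵥ* s) 0 := by
    intro x₁ κ hx
    rw [sumElim_vecMul_fromRows, sumElim_vecMul_fromRows, Matrix.zero_vecMul, add_zero, Matrix.vecMul_add,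
      ← Matrix.vecMul_vecMul, hx, Matrix.zero_vecMul, add_zero, sX, vecMul_fromCols, vecMul_fromCols]
    funext i
    rcases i with r | a <;> simp
  obtain ⟨w', hw1, hw2⟩ := exists_inv_of_bij (fromRows ψ (sX S s)) (fun x hx => by
      obtain ⟨x, κ, rfl⟩ : ∃ (x' : R ⊕ Gen → ZG G) (κ : Fin 2 → ZG G), x = Sum.elim x' κ :=
        ⟨x ∘ .inl, x ∘ .inr, (Sum.elim_comp_inl_inr x).symm⟩
      obtain ⟨x₁, x₂, rfl⟩ : ∃ (x₁ : R → ZG G) (x₂ : Gen → ZG G), x = Sum.elim x₁ x₂ :=
        ⟨x ∘ .inl, x ∘ .inr, (Sum.elim_comp_inl_inr x).symm⟩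
      have e1 : Sum.elim x₁ x₂ ᵥ* foxM (piY W) relY = 0 := by
        have := congrArg (· ᵥ* foxM (piY W) (relX W)) hx
        simp only [Matrix.zero_vecMul] at this
        rwa [sumElim_vecMul_fromRows, Matrix.add_vecMul, Matrix.vecMul_vecMul, Matrix.vecMul_vecMul, hψ, hsX,
          Matrix.vecMul_zero, add_zero] at this
      rw [hdY, sumElim_vecMul_fromRows] at e1
      have e2 : x₁ ᵥ* foxM π rl = 0 := by
        have := congrArg (· ᵥ* Rm) e1
        simp only [Matrix.zero_vecMul] at this
        rwa [Matrix.add_vecMul, Matrix.vecMul_vecMul, Matrix.vecMul_vecMul, Matrix.mul_assoc, hBR, Matrix.mul_one,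
          Matrix.sub_mul, Matrix.mul_assoc, hBR, Matrix.mul_one, hER, sub_self, Matrix.vecMul_zero,
          add_zero] at this
      rw [← Matrix.vecMul_vecMul, e2, Matrix.zero_vecMul, zero_add, Matrix.vecMul_sub, sub_eq_zero,
        ← Matrix.vecMul_vecMul, hEm] at e1
      have e3 : x₂ ᵥ* Vm = 0 := by
        funext e
        have := congrFun e1 (oth e)
        rw [hBoth, extG_oth] at this
        exact this.symm
      have e4 : x₂ = 0 := by
        funext g
        have := congrFun e1 (emb S g)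
        rwa [e3, Matrix.zero_vecMul, extG_emb] at this
      subst e4
      rw [hΦ x₁ κ e2] at hx
      have e5 : x₁ ᵥ* ψ₂ + κ ᵥ* s = 0 := funext fun r => congrFun hx (.inl r)
      have e6 : x₁ = 0 := hinj x₁ e2 (-κ) (by rw [Matrix.neg_vecMul]; exact eq_neg_of_add_eq_zero_left e5)
      subst e6
      rw [Matrix.zero_vecMul, zero_add] at e5
      have e7 : κ = 0 := by
        have := congrArg (· ᵥ* L) e5
        simp only [Matrix.zero_vecMul] at this
        rwa [Matrix.vecMul_vecMul, hL, Matrix.vecMul_one] at this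
      subst e7
      funext i
      rcases i with (r | g) | k <;> rfl) (fun z => by
      obtain ⟨x, hx⟩ := exists_vecMul_of_cycle _ (piY_surj W) _ hkY (z ᵥ* foxM (piY W) (relX W)) (by
        rw [vecMul_bd]
        refine Finset.sum_eq_zero fun i _ => ?_
        have := fox_fund (piY W) (relX W i)
        rw [lift_piY_relX, fox_og_one, sub_self] at this
        exact (congrArg (z i * ·) this).trans (mul_zero _))
      obtain ⟨z₁, z₂, hz⟩ : ∃ (z₁ : Rel → ZG G) (z₂ : S → ZG G), z - x ᵥ* ψ = Sum.elim z₁ z₂ :=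
        ⟨_ ∘ Sum.inl, _ ∘ Sum.inr, (Sum.elim_comp_inl_inr _).symm⟩
      have e1 : Sum.elim z₁ z₂ ᵥ* foxM (piY W) (relX W) = 0 := by
        rw [← hz, Matrix.sub_vecMul, Matrix.vecMul_vecMul, hψ, hx, sub_self]
      have e2 : z₂ = 0 := by
        funext a
        have := congrFun e1 (oth a)
        simpa [Matrix.vecMul, dotProduct, foxM_relX_inl, foxM_relX_inr, extG_oth, Pi.single_apply] using this
      subst e2
      rw [hdX, hEm] at e1
      have e3 : z₁ ᵥ* d2 = 0 := funext fun g => by
        have := congrFun e1 (emb S g)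
        rwa [extG_emb] at this
      obtain ⟨x', κ, hx', hz'⟩ := hsur z₁ e3
      refine ⟨Sum.elim x 0 + Sum.elim (Sum.elim x' 0) κ, ?_⟩
      rw [Matrix.add_vecMul, hΦ x' κ hx', ← hz', ← hz, sumElim_vecMul_fromRows, Matrix.zero_vecMul, add_zero]
      abel)
  refine ⟨⟨W, fun a => ?_, relY, hkY, ψ, hψ, w', hw1, hw2⟩⟩
  rw [hW, map_mul, map_inv, hjw, mul_inv_cancel]

/-- a normalised realisation -/
structure HAlg (s : Matrix (Fin 2) Rel (ZG G)) (κ : Type) [Fintype κ] [DecidableEq κ]
    extends Pair s κ (Option (Fin 2 ⊕ κ)) where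
  comm : relY none ∈ commutator (FreeGroup (Gn (Fin 2 ⊕ κ)))
  odd : Odd (eps G (ψ none (.inl .r)))
  even : ∀ a, Even (eps G (ψ (some a) (.inl .r)))

section hab

variable {s : Matrix (Fin 2) Rel (ZG G)} {κ R : Type} [Fintype κ] [DecidableEq κ] [Fintype R]
  [DecidableEq R]

theorem Pair.hab_rel (P : Pair s κ R) (i : R) : FreeGroup.lift (piY P.W) (P.relY i) = 1 :=
  MonoidHom.mem_ker.1 (P.ker_eq ▸ Subgroup.subset_normalClosure ⟨i, rfl⟩)

theorem Pair.hab_card (P : Pair s κ R) : Fintype.card (Fin 2 ⊕ Option κ) = Fintype.card R := by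
  have h := trace_mul_comm ((fromRows P.ψ (sX κ s)).map (eps G)) (P.w'.map (eps G))
  rw [← Matrix.map_mul, ← Matrix.map_mul, P.mul_w', P.w'_mul, Matrix.map_one _ (map_zero _) (map_one _),
    Matrix.map_one _ (map_zero _) (map_one _), trace_one, trace_one, Nat.cast_inj] at h
  have h5 : Fintype.card Rel = 5 := rfl
  simp only [Fintype.card_sum, Fintype.card_fin, Fintype.card_option] at h ⊢
  omega

/-- change of the relators -/
noncomputable def Pair.slide (P : Pair s κ R) {R' : Type} [Fintype R'] [DecidableEq R']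
    (rl : R' → FreeGroup (Gn (Fin 2 ⊕ κ))) (U : Matrix R' R (ZG G)) (U' : Matrix R R' (ZG G))
    (h₁ : U * U' = 1) (h₂ : U' * U = 1) (hf : U * foxM (piY P.W) P.relY = foxM (piY P.W) rl)
    (hn : Subgroup.normalClosure (Set.range P.relY) = Subgroup.normalClosure (Set.range rl)) :
    Pair s κ R' where
  W := P.W
  fr_W := P.fr_W
  relY := rl
  ker_eq := P.ker_eq.trans hn
  ψ := U * P.ψ
  hψ := by rw [Matrix.mul_assoc, P.hψ, hf]
  w' := P.w' * (fromBlocks U' 0 0 1 : Matrix (R ⊕ Fin 2) (R' ⊕ Fin 2) (ZG G))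
  mul_w' := by
    have e : fromRows (U * P.ψ) (sX κ s) =
        (fromBlocks U 0 0 1 : Matrix (R' ⊕ Fin 2) (R ⊕ Fin 2) (ZG G)) * fromRows P.ψ (sX κ s) := by
      simp [fromBlocks_mul_fromRows]
    rw [e, Matrix.mul_assoc, ← Matrix.mul_assoc _ P.w', P.mul_w', Matrix.one_mul,
      fromBlocks_multiply]
    simp [h₁]
  w'_mul := by
    have e : fromRows (U * P.ψ) (sX κ s) =
        (fromBlocks U 0 0 1 : Matrix (R' ⊕ Fin 2) (R ⊕ Fin 2) (ZG G)) * fromRows P.ψ (sX κ s) := by
      simp [fromBlocks_mul_fromRows]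
    rw [e, Matrix.mul_assoc, ← Matrix.mul_assoc (fromBlocks U' 0 0 1), fromBlocks_multiply]
    simp [h₂, P.w'_mul]

theorem Pair.hab_reindex (P : Pair s κ R) : Nonempty (Pair s κ (Fin 2 ⊕ Option κ)) := by
  let e : Fin 2 ⊕ Option κ ≃ R := Fintype.equivOfCardEq P.hab_card
  refine ⟨P.slide (P.relY ∘ e) ((1 : Matrix R R (ZG G)).submatrix e id)
    ((1 : Matrix R R (ZG G)).submatrix id e) ?_ ?_ ?_ ?_⟩
  · rw [← submatrix_mul _ _ _ _ _ Function.bijective_id, Matrix.one_mul, submatrix_one_equiv]
  · rw [submatrix_mul_equiv, Matrix.one_mul, submatrix_id_id]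
  · rw [← submatrix_id_id (foxM (piY P.W) P.relY),
      ← submatrix_mul _ _ _ _ _ Function.bijective_id, Matrix.one_mul]
    rfl
  · rw [e.surjective.range_comp]

/-- the inclusion of the old generators -/
def habI (κ : Type) : Gn (Fin 2 ⊕ κ) → Gn (Fin 2 ⊕ Option κ) :=
  Option.map (Option.map (Sum.map id some))

/-- the new words -/
def habW (W : κ → FreeGroup Gen) : Option κ → FreeGroup Gen := fun a => a.elim 1 W

omit [Fintype κ] [DecidableEq κ] in
theorem hab_piY (W : κ → FreeGroup Gen) (x : Gn (Fin 2 ⊕ κ)) :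
    piY (habW W) (habI κ x) = piY W x := by
  rcases x with _ | _ | i | a <;> rfl

omit [Fintype κ] [DecidableEq κ] in
theorem hab_lift (W : κ → FreeGroup Gen) (w : FreeGroup (Gn (Fin 2 ⊕ κ))) :
    FreeGroup.lift (piY (habW W)) (FreeGroup.map (habI κ) w) = FreeGroup.lift (piY W) w := by
  have : (FreeGroup.lift (piY (habW W))).comp (FreeGroup.map (habI κ)) = FreeGroup.lift (piY W) := by
    ext x; simp [hab_piY]
  exact DFunLike.congr_fun this w

theorem hab_fox (W : κ → FreeGroup Gen) (w : FreeGroup (Gn (Fin 2 ⊕ κ))) :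
    fox (piY (habW W)) (FreeGroup.map (habI κ) w) = fox (piY W) w ᵥ*
      Matrix.of fun x => fox (piY (habW W)) (FreeGroup.of (habI κ x)) := by
  have h := fox_lift (piY (habW W)) (fun x => FreeGroup.of (habI κ x)) w
  simp only [FreeGroup.lift_apply_of, hab_piY] at h
  rw [← h, FreeGroup.map_eq_lift]
  rfl

omit [Fintype κ] [DecidableEq κ] in
theorem hab_map (w : FreeGroup Gen) :
    FreeGroup.map (habI κ) (FreeGroup.map (emb κ) w) = FreeGroup.map (emb (Option κ)) w := by
  rw [FreeGroup.map.comp]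
  congr 2
  funext x
  cases x <;> rfl

omit [Fintype κ] [DecidableEq κ] in
theorem hab_relX (W : κ → FreeGroup Gen) (x : Rel ⊕ κ) :
    relX (habW W) (Sum.map id some x) = FreeGroup.map (habI κ) (relX W x) := by
  rcases x with x | a
  · exact (hab_map _).symm
  · simp only [relX, Sum.map_inr, map_mul, map_inv, hab_map, FreeGroup.map.of]
    rfl

omit [Fintype κ] [DecidableEq κ] in
theorem hab_relX_none (W : κ → FreeGroup Gen) :
    relX (habW W) (.inr none) = FreeGroup.of (oth none) := by
  simp [relX, habW]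

/-- row indices after stabilisation -/
def habR (R : Type) : Option R ⊕ Fin 2 ≃ (R ⊕ Fin 2) ⊕ Unit where
  toFun
    | .inl none => .inr ()
    | .inl (some i) => .inl (.inl i)
    | .inr k => .inl (.inr k)
  invFun
    | .inr _ => .inl none
    | .inl (.inl i) => .inl (some i)
    | .inl (.inr k) => .inr k
  left_inv x := by rcases x with (_ | _) | _ <;> rfl
  right_inv x := by rcases x with (_ | _) | _ <;> rfl

/-- column indices after stabilisation -/
def habC (κ : Type) : Rel ⊕ Option κ ≃ (Rel ⊕ κ) ⊕ Unit where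
  toFun
    | .inl x => .inl (.inl x)
    | .inr (some a) => .inl (.inr a)
    | .inr none => .inr ()
  invFun
    | .inl (.inl x) => .inl x
    | .inl (.inr a) => .inr (some a)
    | .inr _ => .inr none
  left_inv x := by rcases x with _ | (_ | _) <;> rfl
  right_inv x := by rcases x with (_ | _) | _ <;> rfl

/-- the stabilised comparison matrix -/
noncomputable def Pair.habψ (P : Pair s κ R) : Matrix (Option R) (Rel ⊕ Option κ) (ZG G) :=
  (fromBlocks (fromRows P.ψ (sX κ s)) 0 0 (1 : Matrix Unit Unit (ZG G))).submatrix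
    (fun i => habR R (.inl i)) (habC κ)

theorem Pair.hab_rows (P : Pair s κ R) : fromRows P.habψ (sX (Option κ) s) =
    (fromBlocks (fromRows P.ψ (sX κ s)) 0 0 (1 : Matrix Unit Unit (ZG G))).submatrix
      (habR R) (habC κ) := by
  ext1 i x
  rcases i with i | k
  · rfl
  · rcases x with _ | (_ | _) <;> rfl

/-- a new generator and a new relator killing it -/
noncomputable def Pair.stab (P : Pair s κ R) : Pair s (Option κ) (Option R) where
  W := habW P.W
  fr_W a := by
    rcases a with _ | a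
    · simp [habW]
    · exact P.fr_W a
  relY i := i.elim (FreeGroup.of (oth none)) fun i => FreeGroup.map (habI κ) (P.relY i)
  ker_eq := by
    refine le_antisymm ?_ (Subgroup.normalClosure_le_normal ?_)
    · rw [ker_piY]
      have key : ∀ x, relX (habW P.W) (Sum.map id some x) ∈ Subgroup.normalClosure (Set.range
          fun i : Option R => i.elim (FreeGroup.of (oth none))
            fun i => FreeGroup.map (habI κ) (P.relY i)) := fun x => by
        have h1 : relX P.W x ∈ Subgroup.normalClosure (Set.range P.relY) := by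
          rw [← P.ker_eq, ker_piY]
          exact Subgroup.subset_normalClosure ⟨x, rfl⟩
        rw [hab_relX, ← Subgroup.mem_comap]
        refine Subgroup.normalClosure_le_normal ?_ h1
        rintro _ ⟨i, rfl⟩
        exact Subgroup.subset_normalClosure ⟨some i, rfl⟩
      refine Subgroup.normalClosure_le_normal ?_
      rintro _ ⟨x | (_ | a), rfl⟩
      · exact key (.inl x)
      · rw [hab_relX_none]
        exact Subgroup.subset_normalClosure ⟨none, rfl⟩
      · exact key (.inr a)
    · rintro _ ⟨_ | i, rfl⟩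
      · exact MonoidHom.mem_ker.2 (FreeGroup.lift_apply_of.trans (map_one (FreeGroup.lift gen)))
      · exact MonoidHom.mem_ker.2 ((hab_lift _ _).trans (P.hab_rel i))
  ψ := P.habψ
  hψ := by
    ext1 i y
    rw [Matrix.mul_apply, ← (habC κ).symm.sum_comp, Fintype.sum_sum_type]
    simp only [Pair.habψ, submatrix_apply, Equiv.apply_symm_apply]
    rcases i with _ | i
    · simp only [habR, Equiv.coe_fn_mk, fromBlocks_apply₂₁, fromBlocks_apply₂₂, Matrix.zero_apply,
        zero_mul, Finset.sum_const_zero, zero_add, Finset.univ_unique, Finset.sum_singleton,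
        one_apply_eq, one_mul]
      exact congrArg (fun w => fox (piY (habW P.W)) w y) (hab_relX_none P.W)
    · simp only [habR, Equiv.coe_fn_mk, fromBlocks_apply₁₁, fromBlocks_apply₁₂, Matrix.zero_apply,
        zero_mul, Finset.sum_const_zero, add_zero, fromRows_apply_inl]
      have e : ∀ x, foxM (piY (habW P.W)) (relX (habW P.W)) ((habC κ).symm (.inl x)) y =
          (foxM (piY P.W) (relX P.W) *
            Matrix.of fun x => fox (piY (habW P.W)) (FreeGroup.of (habI κ x))) x y := fun x => by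
        have : (habC κ).symm (.inl x) = Sum.map id some x := by rcases x with _ | _ <;> rfl
        rw [this]
        change fox _ (relX _ _) y = _
        rw [hab_relX, hab_fox]
        rfl
      simp only [e]
      rw [← Matrix.mul_apply, ← Matrix.mul_assoc, P.hψ]
      exact (congrFun (hab_fox P.W (P.relY i)) y).symm
  w' := (fromBlocks P.w' 0 0 (1 : Matrix Unit Unit (ZG G))).submatrix (habC κ) (habR R)
  mul_w' := by
    rw [P.hab_rows, submatrix_mul_equiv, fromBlocks_multiply]
    simp [P.mul_w']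
  w'_mul := by
    rw [P.hab_rows, submatrix_mul_equiv, fromBlocks_multiply]
    simp [P.w'_mul]

theorem hab_fox_prod {S I : Type} [DecidableEq S] (π : S → G) (f : I → FreeGroup S)
    (hf : ∀ i, FreeGroup.lift π (f i) = 1) (l : List I) :
    FreeGroup.lift π (l.map f).prod = 1 ∧
      fox π (l.map f).prod = (l.map fun i => fox π (f i)).sum := by
  induction l with
  | nil => exact ⟨map_one _, fox_one π⟩
  | cons a l ih =>
    simp only [List.map_cons, List.prod_cons, List.sum_cons]
    exact ⟨by rw [map_mul, hf, ih.1, mul_one], by rw [fox_mul, hf, fox_og_one, one_smul, ih.2]⟩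

theorem hab_zpow_prod {A I : Type} [Group A] (x : A) (k : I → ℤ) (l : List I) :
    (l.map fun i => x ^ k i).prod = x ^ (l.map k).sum := by
  induction l with
  | nil => simp
  | cons a l ih => simp only [List.map_cons, List.prod_cons, List.sum_cons, ih, _root_.zpow_add]

/-- the integer matrix of the slides -/
def habU (m c : R → ℤ) : Matrix (Option R) (Option R) ℤ :=
  Matrix.of fun i j => match i, j with
    | none, none => 0
    | none, some j => m j
    | some i, none => c i
    | some i, some j => (if i = j then 1 else 0) - c i * m j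

theorem habU_sq {m c : R → ℤ} (h : ∑ i, m i * c i = 1) : habU m c * habU m c = 1 := by
  ext i j
  rw [Matrix.mul_apply, Fintype.sum_option]
  rcases i with _ | i <;> rcases j with _ | j
  · simp [habU, h]
  · simp [habU, mul_sub, ← mul_assoc, ← Finset.sum_mul, h]
  · simp [habU, sub_mul, mul_assoc, ← Finset.mul_sum, h]
  · have e : ∀ k, c i * m k * (c k * m j) = c i * (m k * c k) * m j := fun k => by ring
    simp [habU, sub_mul, mul_sub, e, ← Finset.sum_mul, ← Finset.mul_sum, h, Matrix.one_apply]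

theorem Pair.hab_slides (Q : Pair s κ (Option R)) {m c : R → ℤ} (h : ∑ i, m i * c i = 1) :
    ∃ Q' : Pair s κ (Option R), Q'.ψ = (habU m c).map (Int.castRingHom (ZG G)) * Q.ψ ∧
      Q'.W = Q.W := by
  let r₀ := (Finset.univ.toList.map fun i => Q.relY (some i) ^ m i).prod
  obtain ⟨h1, h2⟩ := hab_fox_prod (piY Q.W) (fun i => Q.relY (some i) ^ m i)
    (fun i => by rw [map_zpow, Q.hab_rel, _root_.one_zpow]) Finset.univ.toList
  simp only [Finset.sum_map_toList, fox_zpow _ _ (Q.hab_rel _)] at h2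
  let rl : Option R → FreeGroup (Gn (Fin 2 ⊕ κ)) := fun i =>
    i.elim r₀ fun i => Q.relY (some i) * r₀ ^ (-c i) * Q.relY none ^ c i
  have hU : (habU m c).map (Int.castRingHom (ZG G)) * (habU m c).map (Int.castRingHom (ZG G)) = 1 := by
    rw [← Matrix.map_mul, habU_sq h, Matrix.map_one _ (map_zero _) (map_one _)]
  refine ⟨Q.slide rl _ _ hU hU ?_ ?_, rfl, rfl⟩
  · ext1 i y
    rw [Matrix.mul_apply, Fintype.sum_option]
    rcases i with _ | i
    · change _ = fox (piY Q.W) r₀ y
      rw [h2]
      simp [habU, foxM]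
    · change _ = fox (piY Q.W) (Q.relY (some i) * r₀ ^ (-c i) * Q.relY none ^ c i) y
      rw [fox_mul, fox_mul, map_mul, map_zpow, h1, Q.hab_rel, _root_.one_zpow, mul_one, fox_og_one,
        one_smul, one_smul, fox_zpow _ _ h1, fox_zpow _ _ (Q.hab_rel _), h2]
      simp [habU, foxM, sub_mul, mul_assoc, Finset.mul_sum]
      abel
  · refine le_antisymm (Subgroup.normalClosure_le_normal ?_) (Subgroup.normalClosure_le_normal ?_)
    · let q := QuotientGroup.mk' (Subgroup.normalClosure (Set.range rl))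
      have hq : ∀ i, q (rl i) = 1 := fun i =>
        (QuotientGroup.eq_one_iff _).2 (Subgroup.subset_normalClosure ⟨i, rfl⟩)
      have h0 : q r₀ = 1 := hq none
      have h3 : ∀ i, q (Q.relY (some i)) = q (Q.relY none) ^ (-c i) := fun i => by
        have := hq (some i)
        change q (Q.relY (some i) * r₀ ^ (-c i) * Q.relY none ^ c i) = 1 at this
        rwa [map_mul, map_mul, map_zpow, map_zpow, h0, _root_.one_zpow, mul_one,
          mul_eq_one_iff_eq_inv, ← _root_.zpow_neg] at this
      have h4 : q (Q.relY none) = 1 := by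
        rw [map_list_prod, List.map_map] at h0
        simp only [Function.comp_def, map_zpow, h3, ← _root_.zpow_mul] at h0
        rw [hab_zpow_prod, Finset.sum_map_toList] at h0
        simp only [neg_mul, Finset.sum_neg_distrib, mul_comm (c _), h] at h0
        simpa using h0
      rintro _ ⟨_ | i, rfl⟩
      · exact (QuotientGroup.eq_one_iff _).1 h4
      · exact (QuotientGroup.eq_one_iff _).1 (by
          change q _ = 1
          rw [h3, h4, _root_.one_zpow])
    · rw [← Q.ker_eq]
      rintro _ ⟨_ | i, rfl⟩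
      · exact h1
      · change FreeGroup.lift (piY Q.W) (Q.relY (some i) * r₀ ^ (-c i) * Q.relY none ^ c i) = 1
        rw [map_mul, map_mul, map_zpow, map_zpow, h1, Q.hab_rel, Q.hab_rel]
        simp

/-- the integer cycle -/
def habζ (κ : Type) : Rel ⊕ κ → ℤ
  | .inl .r => 29
  | .inl .t => 30
  | .inl .u => 30
  | _ => 0

theorem hab_eps_single (g : G) : eps G (MonoidAlgebra.single g 1) = 1 := eps_og g

theorem hab_eps_sr (k : ℕ) : eps G (sr k) = k := by
  simp [sr, map_sum, hab_eps_single]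

theorem hab_ζ (W : κ → FreeGroup Gen) :
    habζ κ ᵥ* (foxM (piY W) (relX W)).map (eps G) = 0 := by
  funext y
  simp only [vecMul, dotProduct, Fintype.sum_sum_type, sphs_sum, habζ, map_apply, foxM_relX_inl,
    d2_r, d2_t, d2_u, zero_mul, Finset.sum_const_zero, add_zero, Pi.zero_apply]
  rcases y with _ | _ | i | a
  · simp [extG, hab_eps_single]
  · simp [extG, hab_eps_single]
  · fin_cases i <;> simp [extG, hab_eps_single, hab_eps_sr]
  · simp [extG]

theorem hab_sX (hs : IsSph s) (W : κ → FreeGroup Gen) : sX κ s * foxM (piY W) (relX W) = 0 := by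
  ext1 k y
  have h : ∀ g, ∑ x, s k x * d2 x g = 0 := fun g => congrFun (congrFun hs.cyc k) g
  simp only [Matrix.mul_apply, Fintype.sum_sum_type, sX, fromCols_apply_inl, fromCols_apply_inr,
    Matrix.zero_apply, zero_mul, Finset.sum_const_zero, add_zero, foxM_relX_inl]
  rcases y with _ | _ | i | a
  · exact h .t
  · exact h .u
  · fin_cases i
    exacts [h .s, h .r]
  · simp [extG]

theorem Pair.hab_main (hs : IsSph s) (P : Pair s κ R) : ∃ Q : Pair s (Option κ) (Option R),
    Q.relY none ∈ commutator (FreeGroup (Gn (Fin 2 ⊕ Option κ))) ∧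
      Odd (eps G (Q.ψ none (.inl .r))) ∧ ∀ a, Even (eps G (Q.ψ (some a) (.inl .r))) := by
  set E := (fromRows P.ψ (sX κ s)).map (eps G) with hE
  have hEE : P.w'.map (eps G) * E = 1 := by
    rw [← Matrix.map_mul, P.w'_mul, Matrix.map_one _ (map_zero _) (map_one _)]
  set μ := habζ κ ᵥ* P.w'.map (eps G) with hμ
  have h1 : μ ᵥ* E = habζ κ := by rw [hμ, vecMul_vecMul, hEE, vecMul_one]
  have h2 : ∀ x, ∑ i, μ (.inl i) * eps G (P.ψ i x) + ∑ k, μ (.inr k) * eps G (sX κ s k x) =
      habζ κ x := fun x => by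
    rw [← h1]
    simp [vecMul, dotProduct, Fintype.sum_sum_type, hE]
  have hr : ∑ i, μ (.inl i) * eps G (P.ψ i (.inl .r)) = 29 := by
    simpa [sX, hs.eps_r, habζ] using h2 (.inl .r)
  have ht : ∑ i, μ (.inl i) * eps G (P.ψ i (.inl .t)) = 30 := by
    simpa [sX, hs.eps_t, habζ] using h2 (.inl .t)
  let c : R → ℤ := fun i => 29 * eps G (P.ψ i (.inl .r)) - 28 * eps G (P.ψ i (.inl .t))
  have hmc : ∑ i, μ (.inl i) * c i = 1 := by
    have e : ∀ i, μ (.inl i) * c i = 29 * (μ (.inl i) * eps G (P.ψ i (.inl .r))) -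
        28 * (μ (.inl i) * eps G (P.ψ i (.inl .t))) := fun i => by simp only [c]; ring
    simp only [e, Finset.sum_sub_distrib, ← Finset.mul_sum, hr, ht]
    norm_num
  obtain ⟨Q, hQ, hW⟩ := P.stab.hab_slides hmc
  have s1 : ∀ i, P.stab.ψ (some i) (.inl .r) = P.ψ i (.inl .r) := fun _ => rfl
  have s0 : P.stab.ψ none (.inl .r) = 0 := rfl
  refine ⟨Q, mem_commutator_of_eps (piY Q.W) _ fun y => ?_, ?_, fun a => ?_⟩
  · change eps G (foxM (piY Q.W) Q.relY none y) = 0
    rw [← Q.hψ, hQ, hW, Matrix.mul_assoc, P.stab.hψ, Matrix.mul_apply, Fintype.sum_option]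
    have h3 : (fun i => μ (.inl i)) ᵥ* (foxM (piY P.W) P.relY).map (eps G) = 0 := by
      have h4 := hab_ζ P.W
      rw [← h1, vecMul_vecMul, hE, ← Matrix.map_mul, fromRows_mul, P.hψ, hab_sX hs] at h4
      funext x
      simpa [vecMul, dotProduct, Fintype.sum_sum_type] using congrFun h4 x
    have h5 : ∀ i, eps G (foxM (piY P.stab.W) P.stab.relY (some i) y) =
        ((foxM (piY P.W) P.relY).map (eps G) * (Matrix.of fun x =>
          fox (piY (habW P.W)) (FreeGroup.of (habI κ x))).map (eps G)) i y := fun i => by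
      rw [← Matrix.map_mul]
      exact congrArg (eps G) (congrFun (hab_fox P.W (P.relY i)) y)
    have h6 := congrFun (vecMul_vecMul (fun i => μ (.inl i)) ((foxM (piY P.W) P.relY).map (eps G))
      ((Matrix.of fun x => fox (piY (habW P.W)) (FreeGroup.of (habI κ x))).map (eps G))) y
    rw [h3, zero_vecMul] at h6
    simp only [map_sum, map_mul, h5, map_apply, habU, of_apply, eq_intCast, map_intCast,
      Int.cast_id, map_zero, zero_mul, zero_add]
    exact h6.symm
  · rw [hQ, Matrix.mul_apply, Fintype.sum_option]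
    simp only [s0, s1, mul_zero, zero_add, map_sum, map_mul, map_apply, habU, of_apply, eq_intCast,
      map_intCast, Int.cast_id, hr]
    decide
  · rw [hQ, Matrix.mul_apply, Fintype.sum_option]
    simp only [s0, s1, mul_zero, zero_add, map_sum, map_mul, map_apply, habU, of_apply, eq_intCast,
      map_intCast, Int.cast_id, sub_mul, mul_assoc, Finset.sum_sub_distrib, ← Finset.mul_sum, hr,
      ite_mul, one_mul, zero_mul, Finset.sum_ite_eq, Finset.mem_univ, if_true]
    exact ⟨-420 * eps G (P.ψ a (.inl .r)) + 406 * eps G (P.ψ a (.inl .t)), by simp only [c]; ring⟩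

end hab

theorem Pair.exists_hAlg {s : Matrix (Fin 2) Rel (ZG G)} (hs : IsSph s) {κ R : Type} [Fintype κ]
    [DecidableEq κ] [Fintype R] [DecidableEq R] (P : Pair s κ R) : Nonempty (HAlg s (Option κ)) := by
  obtain ⟨P'⟩ := P.hab_reindex
  obtain ⟨Q, h1, h2, h3⟩ := P'.hab_main hs
  exact ⟨⟨Q, h1, h2, h3⟩⟩

variable {s : Matrix (Fin 2) Rel (ZG G)} {κ : Type} [Fintype κ] [DecidableEq κ]

/-- the fixed bijection between row and column indices -/
def rcE (κ : Type) : Rel ⊕ κ ≃ Option (Fin 2 ⊕ κ) ⊕ Fin 2 where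
  toFun
    | .inl .r => .inl none
    | .inl .t => .inl (some (.inl 0))
    | .inl .u => .inl (some (.inl 1))
    | .inl .B => .inr 0
    | .inl .Z => .inr 1
    | .inr a => .inl (some (.inr a))
  invFun
    | .inl none => .inl .r
    | .inl (some (.inl i)) => if i = 0 then .inl .t else .inl .u
    | .inl (some (.inr a)) => .inr a
    | .inr i => if i = 0 then .inl .B else .inl .Z
  left_inv x := by rcases x with (_ | _ | _ | _ | _) | a <;> rfl
  right_inv x := by
    rcases x with (_ | i | a) | i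
    · rfl
    · fin_cases i <;> rfl
    · rfl
    · fin_cases i <;> rfl

/-- the comparison matrix -/
noncomputable def HAlg.w (H : HAlg s κ) : Matrix (Rel ⊕ κ) (Rel ⊕ κ) (ZG G) :=
  (fromRows H.ψ (sX κ s)).submatrix (rcE κ) id

theorem HAlg.isUnit_w (H : HAlg s κ) : IsUnit H.w := by
  refine ⟨⟨H.w, H.w'.submatrix id (rcE κ), ?_, ?_⟩, rfl⟩
  · rw [HAlg.w, ← Matrix.submatrix_mul _ _ _ id _ Function.bijective_id, H.mul_w',
      Matrix.submatrix_one_equiv]
  · rw [HAlg.w, Matrix.submatrix_mul_equiv, H.w'_mul, Matrix.submatrix_id_id]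

theorem HAlg.kill_relY (H : HAlg s κ) (j : Option (Fin 2 ⊕ κ)) : kill _ (H.relY j) = 1 := by
  have e : kill (Fin 2 ⊕ κ) = fr.comp (FreeGroup.lift (piY H.W)) := by
    ext1 g
    rcases gn_cases g with ⟨x, rfl⟩ | ⟨a, rfl⟩
    · rw [MonoidHom.comp_apply, FreeGroup.lift_apply_of, piY, extG_emb]
      cases x
      · exact FreeGroup.lift_apply_of.trans fr_gt.symm
      · exact FreeGroup.lift_apply_of.trans fr_gu.symm
      · exact FreeGroup.lift_apply_of.trans fr_gs.symm
      · exact FreeGroup.lift_apply_of.trans fr_gr.symm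
    · rw [MonoidHom.comp_apply, FreeGroup.lift_apply_of, piY, extG_oth, H.fr_W]
      exact FreeGroup.lift_apply_of
  have : H.relY j ∈ (FreeGroup.lift (piY H.W)).ker := H.ker_eq ▸ Subgroup.subset_normalClosure ⟨j, rfl⟩
  rw [e, MonoidHom.comp_apply, (MonoidHom.mem_ker.1 this), map_one]

end Crest.Agent.R251
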