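import Crest.Agent.R251.Cls

/-!
# Row 251: the local sign of a solution of the realisation

Let `N'` be the matrix with rows `((Rel ⊕ κ) × Fin 3) ⊕ Fin 3` and columns `(Gn × Fin 3) ⊕ (Fin 2 × Fin 3)`,
`N' = [[blow θ (foxM piY relX), (Q; 0)], [Ξ', 0]]`, `Ξ' = (Ξ, 0)`.  The rows and columns of `κ` form an identity block and the other rows
vanish on the columns of `κ` (`foxM_relX_inl/inr`), so `det N' = ± det (NX θ Ξ Q)` after reindexing.  `(blow θ w ⊕ 1) N'` has rows
`[blow θ (foxM relY), *]`, `[0, blow θ s * Q]`, `[Ξ', 0]` (`hψ`, `IsSph.cyc`), so its determinant is `± det (JX relY y Ξ') det (blow θ s * Q)`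
(`AdW_ext`, `fox_mapZ`: `rz (AdW y) (fox of w g) = rz θ (fox piY w g)`).  `Ξ' * gauge y = Ξ * gaugeX θ`.  All signs come from fixed
bijections of index types (`det_reindex`-type lemmas: `det (M.submatrix e e') = sign (e'.symm.trans e …) det`), independent of `θ`.
-/

set_option autoImplicit false
set_option linter.constructorNameAsVariable false
set_option linter.unusedSectionVars false

open Matrix Quaternion

namespace Crest.Agent.R251

variable {s : Matrix (Fin 2) Rel (ZG G)} {κ : Type} [Fintype κ] [DecidableEq κ]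

/-- `3 × 3` blocks -/
abbrev LocA : Type := Matrix (Fin 3) (Fin 3) ℝ

/-- flatten a matrix of blocks -/
def locFl {m m' : Type} (M : Matrix m m' LocA) : Matrix (m × Fin 3) (m' × Fin 3) ℝ :=
  Matrix.of fun p q => M p.1 q.1 p.2 q.2

/-- determinant of a matrix of blocks -/
noncomputable def locDt {m : Type} [Fintype m] [DecidableEq m] (M : Matrix m m LocA) : ℝ :=
  (locFl M).det

section
variable {m m' : Type} [Fintype m] [DecidableEq m] [Fintype m'] [DecidableEq m']

theorem locDt_mul (M N : Matrix m m LocA) : locDt (M * N) = locDt M * locDt N := by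
  rw [locDt, locDt, locDt, ← det_mul]
  congr 1
  ext p q
  simp only [locFl, of_apply, Matrix.mul_apply, Matrix.sum_apply, Fintype.sum_prod_type]

theorem locDt_one : locDt (1 : Matrix m m LocA) = 1 := by
  rw [locDt, ← det_one (n := m × Fin 3)]
  congr 1
  ext ⟨a, i⟩ ⟨b, j⟩
  by_cases h : a = b
  · subst h; simp [locFl, Matrix.one_apply]
  · simp [locFl, Matrix.one_apply, h]

theorem locDt_blocks (A : Matrix m m LocA) (B : Matrix m m' LocA) (C : Matrix m' m LocA)
    (D : Matrix m' m' LocA) :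
    locDt (fromBlocks A B C D) = (fromBlocks (locFl A) (locFl B) (locFl C) (locFl D)).det := by
  rw [locDt, ← det_submatrix_equiv_self (Equiv.sumProdDistrib m m' (Fin 3)).symm]
  congr 1
  ext (p | p) (q | q) <;> rfl

theorem locDt_blocks₂₁ (A : Matrix m m LocA) (B : Matrix m m' LocA) (D : Matrix m' m' LocA) :
    locDt (fromBlocks A B 0 D) = locDt A * locDt D := by
  rw [locDt_blocks]
  exact det_fromBlocks_zero₂₁ _ _ _

theorem locDt_blocks₁₂ (A : Matrix m m LocA) (C : Matrix m' m LocA) (D : Matrix m' m' LocA) :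
    locDt (fromBlocks A 0 C D) = locDt A * locDt D := by
  rw [locDt_blocks]
  exact det_fromBlocks_zero₁₂ _ _ _

theorem locDt_self (e : m ≃ m') (M : Matrix m' m' LocA) : locDt (M.submatrix e e) = locDt M :=
  det_submatrix_equiv_self (e.prodCongr (Equiv.refl (Fin 3))) (locFl M)

theorem loc_sign {I J : Type} (b : m ≃ I) (b' : m ≃ J) (d : m' ≃ I) (d' : m' ≃ J) :
    ∃ ε : ℝ, ε ≠ 0 ∧ ∀ M : Matrix I J LocA,
      locDt (M.submatrix b b') = ε * locDt (M.submatrix d d') := by
  let e : m × Fin 3 ≃ m' × Fin 3 := (b.trans d.symm).prodCongr (Equiv.refl _)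
  let e' : m × Fin 3 ≃ m' × Fin 3 := (b'.trans d'.symm).prodCongr (Equiv.refl _)
  refine ⟨((Equiv.Perm.sign (e'.trans e.symm) : ℤ) : ℝ), Int.cast_ne_zero.2 (Units.ne_zero _),
    fun M => ?_⟩
  rw [locDt, locDt, ← det_submatrix_equiv_self e (locFl (M.submatrix d d')), ← det_permute']
  congr 1
  ext p q
  simp [locFl, e, e']

theorem locDt_option (M : Matrix (Option m) (Option m) LocA) (h1 : M none none = 1)
    (h2 : ∀ a, M none (some a) = 0) : locDt M = locDt (M.submatrix some some) := by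
  rw [← locDt_self (Equiv.optionEquivSumPUnit.{0} m).symm M]
  have : M.submatrix (Equiv.optionEquivSumPUnit.{0} m).symm (Equiv.optionEquivSumPUnit.{0} m).symm =
      fromBlocks (M.submatrix some some) (Matrix.of fun a _ => M (some a) none) 0 1 := by
    ext (p | p) (q | q) : 2 <;> simp [h1, h2]
  rw [this, locDt_blocks₂₁, locDt_one, mul_one]

end

/-- rows of the comparison matrix against its columns -/
def locC (κ : Type) : Option (Rel ⊕ κ) ≃ Gn (Fin 2 ⊕ κ) ⊕ Fin 2 where
  toFun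
    | none => .inl none
    | some r => (rcE κ r).map some id
  invFun
    | .inl none => none
    | .inl (some j) => some ((rcE κ).symm (.inl j))
    | .inr k => some ((rcE κ).symm (.inr k))
  left_inv x := by
    rcases x with _ | r
    · rfl
    · obtain ⟨p, rfl⟩ := (rcE κ).symm.surjective r
      rcases p with j | k <;> simp
  right_inv x := by rcases x with (_ | j) | k <;> simp

def locD1 (κ : Type) : (Gen ⊕ Fin 2) ⊕ κ ≃ Option (Rel ⊕ κ) where
  toFun
    | .inl p => (eRG p).map .inl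
    | .inr a => some (.inr a)
  invFun
    | none => .inl (eRG.symm none)
    | some (.inl r) => .inl (eRG.symm (some r))
    | some (.inr a) => .inr a
  left_inv x := by
    rcases x with p | a
    · obtain ⟨q, rfl⟩ := eRG.symm.surjective p
      rcases q with _ | r <;> simp
    · rfl
  right_inv x := by rcases x with _ | r | a <;> simp

def locY (κ : Type) : Gen ⊕ κ ≃ Gn (Fin 2 ⊕ κ) where
  toFun := Sum.elim (emb κ) oth
  invFun := extG .inl .inr
  left_inv x := by
    rcases x with g | a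
    · exact extG_emb _ _ g
    · rfl
  right_inv x := by
    rcases x with _ | _ | i | a
    · rfl
    · rfl
    · fin_cases i <;> rfl
    · rfl

def locD2 (κ : Type) : (Gen ⊕ Fin 2) ⊕ κ ≃ Gn (Fin 2 ⊕ κ) ⊕ Fin 2 where
  toFun
    | .inl (.inl g) => .inl (emb κ g)
    | .inl (.inr k) => .inr k
    | .inr a => .inl (oth a)
  invFun := Sum.elim (extG (fun g => .inl (.inl g)) .inr) fun k => .inl (.inr k)
  left_inv x := by
    rcases x with (g | k) | a
    · cases g <;> rfl
    · rfl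
    · rfl
  right_inv x := by
    rcases x with (_ | _ | i | a) | k
    · rfl
    · rfl
    · fin_cases i <;> rfl
    · rfl
    · rfl

/-- the gauge rows as blocks -/
def locXb (Ξ : Matrix (Fin 3) (Gen × Fin 3) ℝ) : Gn (Fin 2 ⊕ κ) → LocA :=
  extG (fun g => Matrix.of fun i k => Ξ i (g, k)) 0

/-- the extended gauge rows -/
def locXi (Ξ : Matrix (Fin 3) (Gen × Fin 3) ℝ) : Matrix (Fin 3) (Gn (Fin 2 ⊕ κ) × Fin 3) ℝ :=
  Matrix.of fun i q => locXb Ξ q.1 i q.2

/-- the slack columns as blocks -/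
def locQb (Q : Matrix (Rel × Fin 3) (Fin 2 × Fin 3) ℝ) : Rel ⊕ κ → Fin 2 → LocA
  | .inl r, k => Matrix.of fun i l => Q (r, i) (k, l)
  | .inr _, _ => 0

noncomputable def locN (W : κ → FreeGroup Gen) (θ : G →* LocA) (Ξ : Matrix (Fin 3) (Gen × Fin 3) ℝ)
    (Q : Matrix (Rel × Fin 3) (Fin 2 × Fin 3) ℝ) :
    Matrix (Option (Rel ⊕ κ)) (Gn (Fin 2 ⊕ κ) ⊕ Fin 2) LocA :=
  Matrix.of fun p q => match p, q with
    | none, .inl y => locXb Ξ y
    | none, .inr _ => 0
    | some r, .inl y => rz θ (foxM (piY W) (relX W) r y)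
    | some r, .inr k => locQb Q r k

noncomputable def locW (H : HAlg s κ) (θ : G →* LocA) :
    Matrix (Gn (Fin 2 ⊕ κ) ⊕ Fin 2) (Option (Rel ⊕ κ)) LocA :=
  Matrix.of fun p q => match p, q with
    | .inl none, none => 1
    | .inl none, some _ => 0
    | .inl (some _), none => 0
    | .inl (some j), some r => rz θ (H.ψ j r)
    | .inr _, none => 0
    | .inr k, some r => rz θ (sX κ s k r)

noncomputable def locJ (H : HAlg s κ) (θ : G →* LocA) (Ξ : Matrix (Fin 3) (Gen × Fin 3) ℝ) :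
    Matrix (Gn (Fin 2 ⊕ κ)) (Gn (Fin 2 ⊕ κ)) LocA :=
  Matrix.of fun p y => match p with
    | none => locXb Ξ y
    | some j => rz θ (fox (piY H.W) (H.relY j) y)

noncomputable def locSQ (s : Matrix (Fin 2) Rel (ZG G)) (θ : G →* LocA)
    (Q : Matrix (Rel × Fin 3) (Fin 2 × Fin 3) ℝ) : Matrix (Fin 2) (Fin 2) LocA :=
  Matrix.of fun k k' => Matrix.of fun i l => (blow θ s * Q) (k, i) (k', l)

theorem loc_detN (W : κ → FreeGroup Gen) (θ : G →* LocA) (Ξ : Matrix (Fin 3) (Gen × Fin 3) ℝ)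
    (Q : Matrix (Rel × Fin 3) (Fin 2 × Fin 3) ℝ) :
    locDt ((locN W θ Ξ Q).submatrix (locD1 κ) (locD2 κ)) = (NX θ Ξ Q).det := by
  set M := (locN W θ Ξ Q).submatrix (locD1 κ) (locD2 κ) with hM
  have h12 : M.toBlocks₁₂ = 0 := by
    refine Matrix.ext fun p a => ?_
    change locN W θ Ξ Q ((eRG p).map .inl) (.inl (oth a)) = 0
    rcases eRG p with _ | r
    · rfl
    · change rz θ (foxM (piY W) (relX W) (.inl r) (oth a)) = 0
      rw [foxM_relX_inl, extG_oth, Pi.zero_apply, map_zero]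
  have h22 : M.toBlocks₂₂ = 1 := by
    refine Matrix.ext fun a b => ?_
    change rz θ (foxM (piY W) (relX W) (.inr a) (oth b)) = _
    rw [foxM_relX_inr, extG_oth]
    by_cases h : a = b
    · subst h; simp
    · simp [h, Ne.symm h]
  rw [← fromBlocks_toBlocks M, h12, h22, locDt_blocks₁₂, locDt_one, mul_one, locDt]
  congr 1
  ext ⟨p, i⟩ ⟨q, l⟩
  change locN W θ Ξ Q ((eRG p).map .inl) (locD2 κ (.inl q)) i l = _
  simp only [NX, of_apply]
  rcases eRG p with _ | r <;> rcases q with g | k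
  · change locXb Ξ (emb κ g) i l = _
    rw [locXb, extG_emb]
    rfl
  · rfl
  · change rz θ (foxM (piY W) (relX W) (.inl r) (emb κ g)) i l = _
    rw [foxM_relX_inl, extG_emb]
    rfl
  · rfl

theorem loc_detW (H : HAlg s κ) (θ : G →* LocA) :
    locDt ((locW H θ).submatrix id (locC κ).symm) = DD θ H.w := by
  rw [← locDt_self (locC κ), locDt_option]
  · rw [locDt, DD]
    congr 1
    ext ⟨r, i⟩ ⟨r', l⟩
    change locW H θ ((rcE κ r).map some id) ((locC κ).symm (locC κ (some r'))) i l =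
      rz θ (fromRows H.ψ (sX κ s) (rcE κ r) r') i l
    rw [Equiv.symm_apply_apply]
    rcases rcE κ r with j | k <;> rfl
  · rfl
  · intro a
    change locW H θ (.inl none) ((locC κ).symm (locC κ (some a))) = 0
    rw [Equiv.symm_apply_apply]
    rfl

theorem loc_WN (hs : IsSph s) (H : HAlg s κ) (θ : G →* LocA) (Ξ : Matrix (Fin 3) (Gen × Fin 3) ℝ)
    (Q : Matrix (Rel × Fin 3) (Fin 2 × Fin 3) ℝ) :
    locW H θ * locN H.W θ Ξ Q =
      fromBlocks (locJ H θ Ξ) (locW H θ * locN H.W θ Ξ Q).toBlocks₁₂ 0 (locSQ s θ Q) := by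
  refine Matrix.ext ?_
  rintro (p | k) (y | k')
  · rw [Matrix.mul_apply, Fintype.sum_option]
    rcases p with _ | j
    · simp [locW, locN, locJ]
    · have := congrArg (rz θ) (congrFun (congrFun H.hψ j) y)
      rw [Matrix.mul_apply, map_sum] at this
      simpa [locW, locN, locJ, foxM] using this
  · rfl
  · rw [Matrix.mul_apply, Fintype.sum_option, Fintype.sum_sum_type]
    obtain ⟨y, rfl⟩ := (locY κ).surjective y
    rcases y with g | a
    · have := congrArg (rz θ) (congrFun (congrFun hs.cyc k) g)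
      rw [Matrix.mul_apply, map_sum] at this
      simpa [locW, locN, sX, locY, foxM_relX_inl, extG_emb] using this
    · simp [locW, locN, sX, locY, foxM_relX_inl, extG_oth]
  · rw [Matrix.mul_apply, Fintype.sum_option, Fintype.sum_sum_type]
    ext i l
    simp [locW, locN, sX, locSQ, locQb, Matrix.mul_apply, Matrix.sum_apply, Fintype.sum_prod_type,
      blow_apply]

theorem loc_J (H : HAlg s κ) {x : Gen → ℍ[ℝ]} (h : XSol x) (Ξ : Matrix (Fin 3) (Gen × Fin 3) ℝ) :
    locDt (locJ H h.th Ξ) = (JX H.relY (H.ext x) (locXi Ξ)).det := by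
  rw [locDt]
  congr 1
  ext ⟨p, i⟩ ⟨y, l⟩
  rcases p with _ | j
  · rfl
  · change rz h.th (fox (piY H.W) (H.relY j) y) i l =
      rz (AdW (H.ext x)) (fox FreeGroup.of (H.relY j) y) i l
    have h1 := fox_mapZ (FreeGroup.lift (piY H.W)) FreeGroup.of (H.relY j) y
    simp only [FreeGroup.lift_apply_of] at h1
    rw [← h1]
    refine congrFun (congrFun (?_ : @Eq LocA _ _) i) l
    refine foxb_ext ((rz h.th).toAddMonoidHom.comp (mapZ (FreeGroup.lift (piY H.W))).toAddMonoidHom)
      (rz (AdW (H.ext x))).toAddMonoidHom (fun g => ?_) _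
    change rz h.th (mapZ _ (og g)) = rz _ (og g)
    rw [mapZ_og, rz_og, rz_og, H.AdW_ext h]

theorem loc_gauge (H : HAlg s κ) {x : Gen → ℍ[ℝ]} (h : XSol x)
    (Ξ : Matrix (Fin 3) (Gen × Fin 3) ℝ) :
    locXi (κ := κ) Ξ * gauge (H.ext x) = Ξ * gaugeX h.th := by
  ext i l
  rw [Matrix.mul_apply, Matrix.mul_apply, Fintype.sum_prod_type, Fintype.sum_prod_type,
    ← (locY κ).sum_comp, Fintype.sum_sum_type]
  simp [locXi, locXb, locY, gauge, gaugeX, HAlg.ext, extG_emb, extG_oth, h.th_gen]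

theorem HAlg.signAt (hs : IsSph s) (H : HAlg s κ) : ∃ c : ℝ, c ≠ 0 ∧
    ∀ (x : Gen → ℍ[ℝ]) (h : XSol x) (e : ℝ), TauSign s h.th e →
      SignAt H.relY (H.ext x) (c * e * DD h.th H.w) := by
  obtain ⟨ε, hε, hsg⟩ := loc_sign (locC κ).symm (Equiv.refl _) (locD1 κ) (locD2 κ)
  refine ⟨ε, hε, fun x h e ⟨Ξ, Q, hpos⟩ => ⟨locXi Ξ, ?_⟩⟩
  have hD : DD h.th H.w ≠ 0 := (isUnit_DD _ H.isUnit_w).ne_zero
  have key : (JX H.relY (H.ext x) (locXi Ξ)).det * (blow h.th s * Q).det =
      DD h.th H.w * (ε * (NX h.th Ξ Q).det) := by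
    rw [← loc_detN H.W h.th Ξ Q, ← hsg, ← loc_detW H h.th, ← locDt_mul, submatrix_mul_equiv,
      Equiv.coe_refl, submatrix_id_id, loc_WN hs H h.th Ξ Q, locDt_blocks₂₁, loc_J H h]
    rfl
  rw [loc_gauge H h]
  have hS : (blow h.th s * Q).det ≠ 0 := right_ne_zero_of_mul hpos.ne'
  have h1 : ε * e * DD h.th H.w * (JX H.relY (H.ext x) (locXi Ξ)).det * (Ξ * gaugeX h.th).det *
      (blow h.th s * Q).det ^ 2 = (ε * DD h.th H.w) ^ 2 *
        (e * (NX h.th Ξ Q).det * (Ξ * gaugeX h.th).det * (blow h.th s * Q).det) := by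
    linear_combination
      (ε * e * DD h.th H.w * (Ξ * gaugeX h.th).det * (blow h.th s * Q).det) * key
  have h2 : 0 < (ε * DD h.th H.w) ^ 2 *
      (e * (NX h.th Ξ Q).det * (Ξ * gaugeX h.th).det * (blow h.th s * Q).det) := by positivity
  rw [← h1] at h2
  exact pos_of_mul_pos_left h2 (sq_nonneg _)

end Crest.Agent.R251
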