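import Crest.Agent.R251.Ex

/-!
# Row 251: explicit data for the spheres (checked numerically)

Vectors are functions `Rel → Ex`.  `xB`, `xZ` are the two spheres; `muBL`, `muZL` their `r`-coefficients.
-/

set_option autoImplicit false

namespace Crest.Agent.R251.Dat

def muBL : List (ℤ × List ℕ) := [
  (1, []), (-1, [32, 15]), (-1, [32, 35, 15]), (2, [31]), (1, [31, 10]), (-1, [31, 12]), (-1, [31, 2]),
  (-2, [31, 22]), (1, [30, 31]), (1, [35]), (-1, [35, 30]), (1, [35, 15, 30]), (-2, [36, 30]), (-1, [1, 32, 15]),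
  (-1, [1, 32, 35, 15]), (-1, [2, 32, 15]), (-1, [2, 32, 35, 15]), (-1, [3, 32, 15]), (-1, [3, 32, 35, 15]),
  (-1, [4, 32, 15]), (-1, [4, 32, 35, 15]), (-1, [5, 32, 15]), (-1, [6, 32, 15]), (-1, [7, 32, 15]),
  (-1, [8, 32, 15]), (-1, [9, 32, 15]), (-1, [12, 34, 15]), (-1, [18, 34, 15]), (-1, [13, 34, 15]),
  (-1, [19, 34, 15]), (-1, [8, 34, 15]), (-1, [14, 34, 15]), (-1, [20, 34, 15]), (-1, [9, 34, 15]),
  (-1, [15, 34, 15]), (-1, [21, 34, 15]), (-1, [10, 34, 15]), (-1, [16, 34, 15]), (-1, [22, 34, 15]),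
  (-1, [11, 34, 15]), (-1, [17, 34, 15]), (1, [31, 1, 32, 35]), (1, [31, 1, 32, 36]), (1, [31, 2, 32, 35]),
  (1, [31, 2, 32, 36]), (1, [31, 3, 32, 35]), (1, [31, 3, 32, 36]), (1, [31, 4, 32, 35]), (1, [31, 4, 32, 36]),
  (1, [31, 5, 32, 35]), (1, [31, 5, 32, 36]), (1, [31, 6, 32, 35]), (1, [31, 6, 32, 36]), (1, [31, 7, 32, 35]),
  (1, [31, 7, 32, 36]), (1, [31, 8, 32, 35]), (1, [31, 8, 32, 36]), (1, [31, 9, 32, 35]), (1, [31, 9, 32, 36]),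
  (1, [30, 31, 1, 32, 35]), (-2, [30, 31, 1, 32, 35, 15]), (-1, [30, 31, 1, 32, 36]), (1, [30, 31, 2, 32, 35]),
  (-2, [30, 31, 2, 32, 35, 15]), (-1, [30, 31, 2, 32, 36]), (1, [30, 31, 3, 32, 35]), (-2, [30, 31, 3, 32, 35, 15]),
  (-1, [30, 31, 3, 32, 36]), (1, [30, 31, 4, 32, 35]), (-2, [30, 31, 4, 32, 35, 15]), (-1, [30, 31, 4, 32, 36]),
  (1, [30, 31, 5, 32, 35]), (-2, [30, 31, 5, 32, 35, 15]), (-1, [30, 31, 5, 32, 36]), (1, [30, 31, 6, 32, 35]),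
  (-2, [30, 31, 6, 32, 35, 15]), (-1, [30, 31, 6, 32, 36]), (1, [30, 31, 7, 32, 35]), (-2, [30, 31, 7, 32, 35, 15]),
  (-1, [30, 31, 7, 32, 36]), (1, [30, 31, 8, 32, 35]), (-2, [30, 31, 8, 32, 35, 15]), (-1, [30, 31, 8, 32, 36]),
  (1, [30, 31, 9, 32, 35]), (-2, [30, 31, 9, 32, 35, 15]), (-1, [30, 31, 9, 32, 36]), (8, [35, 32]),
  (-15, [35, 32, 1]), (15, [35, 32, 10]), (-15, [35, 32, 11]), (15, [35, 32, 12]), (-15, [35, 32, 13]),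
  (15, [35, 32, 14]), (-8, [35, 32, 15]), (15, [35, 32, 2]), (-15, [35, 32, 3]), (15, [35, 32, 4]),
  (-15, [35, 32, 5]), (15, [35, 32, 6]), (-15, [35, 32, 7]), (15, [35, 32, 8]), (-15, [35, 32, 9]),
  (2, [35, 32, 35]), (-2, [35, 32, 35, 15]), (-1, [35, 32, 36]), (2, [35, 1, 32, 35]), (-2, [35, 1, 32, 35, 15]),
  (-1, [35, 1, 32, 36]), (2, [35, 2, 32, 35]), (-2, [35, 2, 32, 35, 15]), (-1, [35, 2, 32, 36]),
  (2, [35, 3, 32, 35]), (-2, [35, 3, 32, 35, 15]), (-1, [35, 3, 32, 36]), (2, [35, 4, 32, 35]),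
  (-2, [35, 4, 32, 35, 15]), (-1, [35, 4, 32, 36]), (-1, [35, 5, 32, 36]), (-1, [35, 6, 32, 35]),
  (-1, [35, 6, 32, 36]), (-1, [35, 7, 32, 35]), (-1, [35, 7, 32, 36]), (2, [35, 8, 32]), (-2, [35, 8, 32, 15]),
  (-1, [35, 8, 32, 35]), (-1, [35, 8, 32, 36]), (2, [35, 9, 32]), (-2, [35, 9, 32, 15]), (-1, [35, 9, 32, 35]),
  (-1, [35, 9, 32, 36]), (1, [36, 32, 15]), (1, [36, 32, 35, 15]), (1, [36, 32, 36]), (1, [36, 1, 32, 15]),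
  (1, [36, 1, 32, 35, 15]), (1, [36, 1, 32, 36]), (1, [36, 2, 32, 15]), (1, [36, 2, 32, 35, 15]),
  (1, [36, 2, 32, 36]), (1, [36, 3, 32, 15]), (1, [36, 3, 32, 35, 15]), (1, [36, 3, 32, 36, 15]),
  (1, [36, 4, 32, 15]), (1, [36, 4, 32, 35, 15]), (1, [36, 4, 32, 36, 15]), (1, [36, 5, 32, 15]),
  (-1, [36, 5, 32, 35]), (1, [36, 5, 32, 35, 15]), (1, [36, 5, 32, 36, 15]), (1, [36, 6, 32, 15]),
  (1, [36, 6, 32, 35]), (1, [36, 6, 32, 36, 15]), (1, [36, 7, 32, 15]), (1, [36, 7, 32, 35]),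
  (1, [36, 7, 32, 36, 15]), (1, [36, 8, 32, 15]), (1, [36, 8, 32, 35]), (1, [36, 8, 32, 36, 15]),
  (1, [36, 9, 32, 15]), (1, [36, 9, 32, 35]), (1, [36, 9, 32, 36, 15]), (1, [31, 34]), (1, [31, 6, 34]),
  (1, [31, 18, 34]), (1, [31, 24, 34]), (1, [31, 1, 34]), (1, [31, 7, 34]), (1, [31, 19, 34]), (1, [31, 25, 34]),
  (1, [31, 2, 34]), (1, [31, 20, 34]), (1, [31, 26, 34]), (1, [31, 3, 34]), (1, [31, 21, 34]), (1, [31, 27, 34]),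
  (1, [31, 4, 34]), (1, [31, 22, 34]), (1, [31, 28, 34]), (1, [31, 5, 34]), (1, [31, 23, 34]), (1, [31, 29, 34]),
  (-1, [30, 31, 34]), (-1, [30, 31, 6, 34]), (1, [30, 31, 18, 34]), (-2, [30, 31, 18, 34, 15]),
  (1, [30, 31, 24, 34]), (-2, [30, 31, 24, 34, 15]), (-1, [30, 31, 1, 34]), (-1, [30, 31, 7, 34]),
  (1, [30, 31, 19, 34]), (-2, [30, 31, 19, 34, 15]), (1, [30, 31, 25, 34]), (-2, [30, 31, 25, 34, 15]),
  (-1, [30, 31, 2, 34]), (1, [30, 31, 20, 34]), (-2, [30, 31, 20, 34, 15]), (1, [30, 31, 26, 34]),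
  (-2, [30, 31, 26, 34, 15]), (-1, [30, 31, 3, 34]), (1, [30, 31, 21, 34]), (-2, [30, 31, 21, 34, 15]),
  (1, [30, 31, 27, 34]), (-2, [30, 31, 27, 34, 15]), (-1, [30, 31, 4, 34]), (1, [30, 31, 22, 34]),
  (-2, [30, 31, 22, 34, 15]), (-1, [30, 31, 28, 34]), (-1, [30, 31, 5, 34]), (1, [30, 31, 23, 34]),
  (-2, [30, 31, 23, 34, 15]), (-1, [30, 31, 29, 34]), (-1, [35, 34]), (-1, [35, 6, 34]), (2, [35, 18, 34]),
  (-2, [35, 18, 34, 15]), (-1, [35, 24, 34]), (-1, [35, 1, 34]), (-1, [35, 7, 34]), (2, [35, 19, 34]),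
  (-2, [35, 19, 34, 15]), (-1, [35, 25, 34]), (-1, [35, 2, 34]), (2, [35, 20, 34]), (-2, [35, 20, 34, 15]),
  (-1, [35, 26, 34]), (-1, [35, 3, 34]), (1, [35, 15, 34]), (-1, [35, 15, 34, 15]), (2, [35, 21, 34]),
  (-2, [35, 21, 34, 15]), (-1, [35, 27, 34]), (-1, [35, 4, 34]), (2, [35, 16, 34]), (-2, [35, 16, 34, 15]),
  (2, [35, 22, 34]), (-2, [35, 22, 34, 15]), (-1, [35, 28, 34]), (-1, [35, 5, 34]), (2, [35, 17, 34]),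
  (-2, [35, 17, 34, 15]), (-1, [35, 23, 34]), (-1, [35, 29, 34]), (1, [36, 34]), (1, [36, 6, 34, 15]),
  (1, [36, 12, 34, 15]), (1, [36, 18, 34, 15]), (1, [36, 24, 34]), (1, [36, 1, 34, 15]), (1, [36, 7, 34, 15]),
  (1, [36, 13, 34, 15]), (1, [36, 19, 34, 15]), (1, [36, 25, 34]), (1, [36, 2, 34, 15]), (1, [36, 8, 34, 15]),
  (1, [36, 14, 34, 15]), (1, [36, 20, 34, 15]), (1, [36, 26, 34]), (1, [36, 3, 34, 15]), (1, [36, 9, 34, 15]),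
  (1, [36, 15, 34, 15]), (1, [36, 21, 34, 15]), (1, [36, 27, 34]), (1, [36, 4, 34, 15]), (1, [36, 10, 34, 15]),
  (1, [36, 16, 34, 15]), (1, [36, 22, 34, 15]), (1, [36, 28, 34]), (1, [36, 5, 34, 15]), (1, [36, 11, 34, 15]),
  (1, [36, 17, 34, 15]), (1, [36, 23, 34]), (1, [36, 29, 34])]

def muZL : List (ℤ × List ℕ) := [
  (1, [24]), (-1, [6]), (1, [37, 24]), (-1, [38, 6]), (1, [32, 15]), (1, [1, 32, 15]), (-1, [1, 32, 35, 15]),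
  (1, [2, 32, 15]), (-1, [2, 32, 35, 15]), (1, [3, 32, 15]), (-1, [3, 32, 35, 15]), (1, [4, 32, 15]),
  (-3, [4, 32, 35]), (2, [4, 32, 35, 15]), (-3, [5, 32, 35]), (2, [5, 32, 35, 15]), (-3, [6, 32, 35]),
  (2, [6, 32, 35, 15]), (1, [7, 32, 35]), (-1, [7, 32, 35, 15]), (1, [8, 32, 35]), (-1, [8, 32, 35, 15]),
  (1, [9, 32, 35]), (-1, [9, 32, 35, 15]), (1, [9, 32, 36, 15]), (2, [34, 31]), (-1, [34, 31, 12]),
  (-1, [34, 31, 22]), (1, [6, 34, 31]), (-4, [6, 34, 31, 10, 30]), (2, [6, 34, 31, 18, 30]),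
  (-4, [6, 34, 31, 20, 30]), (4, [6, 34, 31, 28, 30]), (2, [6, 34, 31, 8, 30]), (-1, [6, 34, 35]),
  (-1, [12, 34, 31]), (-4, [12, 34, 31, 10]), (2, [12, 34, 31, 12]), (4, [12, 34, 31, 2]), (-4, [12, 34, 31, 20]),
  (2, [12, 34, 31, 22]), (1, [12, 34, 15]), (-1, [12, 34, 35]), (1, [12, 34, 35, 15]), (1, [12, 34, 36]),
  (1, [18, 34, 31]), (-1, [18, 34]), (-1, [18, 34, 35, 15]), (-1, [18, 34, 36]), (1, [18, 34, 36, 15]),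
  (-1, [24, 34, 31]), (1, [24, 34, 36, 15]), (1, [7, 34, 15]), (-1, [19, 34, 15]), (1, [25, 34]),
  (-1, [25, 34, 15]), (1, [8, 34, 15]), (-1, [20, 34, 15]), (1, [26, 34]), (-1, [26, 34, 15]), (1, [9, 34, 15]),
  (-1, [21, 34]), (1, [10, 34, 15]), (-3, [22, 34]), (2, [22, 34, 15]), (1, [11, 34, 15]), (-3, [23, 34]),
  (2, [23, 34, 15]), (-1, [37, 32, 15]), (-1, [37, 32, 35, 15]), (1, [37, 32, 36]), (-1, [37, 32, 36, 15]),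
  (-1, [37, 1, 32, 15]), (1, [37, 1, 32, 36]), (-1, [37, 1, 32, 36, 15]), (-1, [37, 2, 32, 15]),
  (1, [37, 2, 32, 36]), (-1, [37, 2, 32, 36, 15]), (-1, [37, 3, 32, 15]), (-1, [37, 3, 32, 36]),
  (1, [37, 3, 32, 36, 15]), (-1, [37, 4, 32, 15]), (-1, [37, 4, 32, 36]), (1, [37, 4, 32, 36, 15]),
  (-2, [37, 5, 32]), (1, [37, 5, 32, 15]), (-1, [37, 5, 32, 36]), (1, [37, 5, 32, 36, 15]), (-2, [37, 6, 32]),
  (1, [37, 6, 32, 15]), (-2, [37, 7, 32]), (1, [37, 7, 32, 15]), (-1, [37, 8, 32, 15]), (-1, [37, 9, 32, 15]),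
  (-1, [37, 9, 32, 36, 15]), (1, [38, 32]), (-1, [38, 32, 15]), (1, [38, 32, 35, 15]), (1, [38, 1, 32]),
  (-1, [38, 1, 32, 15]), (1, [38, 1, 32, 35]), (1, [38, 2, 32, 35]), (1, [38, 3, 32, 35]), (1, [38, 4, 32, 35, 15]),
  (1, [38, 5, 32, 15]), (1, [38, 5, 32, 35, 15]), (1, [38, 6, 32, 15]), (1, [38, 6, 32, 35, 15]),
  (1, [38, 7, 32, 15]), (1, [38, 8, 32, 15]), (1, [38, 9, 32, 15]), (1, [38, 9, 32, 36]), (-1, [38, 9, 32, 36, 15]),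
  (1, [34, 31, 1, 32]), (-1, [34, 31, 1, 32, 15]), (1, [34, 31, 2, 32]), (-1, [34, 31, 2, 32, 15]),
  (1, [34, 31, 3, 32]), (-1, [34, 31, 3, 32, 15]), (1, [34, 31, 4, 32]), (-1, [34, 31, 4, 32, 15]),
  (-1, [34, 31, 6, 32, 35]), (1, [34, 31, 6, 32, 35, 15]), (-1, [34, 31, 7, 32, 35]), (1, [34, 31, 7, 32, 35, 15]),
  (-1, [34, 31, 8, 32, 35]), (1, [34, 31, 8, 32, 35, 15]), (-1, [34, 31, 9, 32, 35]), (1, [34, 31, 9, 32, 35, 15]),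
  (-1, [37, 1, 34]), (1, [37, 1, 34, 15]), (-1, [37, 7, 34, 15]), (-2, [37, 13, 34]), (1, [37, 13, 34, 15]),
  (-1, [37, 2, 34]), (1, [37, 2, 34, 15]), (-1, [37, 8, 34, 15]), (-2, [37, 14, 34]), (1, [37, 14, 34, 15]),
  (-1, [37, 9, 34, 15]), (-1, [37, 15, 34]), (-1, [37, 10, 34, 15]), (-1, [37, 16, 34, 15]), (1, [37, 28, 34]),
  (-1, [37, 28, 34, 15]), (-1, [37, 11, 34, 15]), (-1, [37, 17, 34, 15]), (1, [37, 29, 34]), (-1, [37, 29, 34, 15]),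
  (1, [38, 7, 34]), (-1, [38, 7, 34, 15]), (1, [38, 13, 34, 15]), (1, [38, 19, 34]), (1, [38, 8, 34]),
  (-1, [38, 8, 34, 15]), (1, [38, 14, 34, 15]), (1, [38, 20, 34]), (1, [38, 15, 34, 15]), (1, [38, 21, 34]),
  (1, [38, 16, 34, 15]), (1, [38, 22, 34, 15]), (1, [38, 17, 34, 15]), (1, [38, 23, 34, 15]),
  (-1, [6, 34, 31, 1, 32]), (-1, [6, 34, 31, 1, 32, 35]), (1, [6, 34, 31, 1, 32, 35, 15]), (-1, [6, 34, 31, 2, 32]),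
  (-1, [6, 34, 31, 2, 32, 35]), (1, [6, 34, 31, 2, 32, 35, 15]), (-1, [6, 34, 31, 3, 32]),
  (-1, [6, 34, 31, 3, 32, 35]), (1, [6, 34, 31, 3, 32, 35, 15]), (-1, [6, 34, 31, 4, 32]),
  (-1, [6, 34, 31, 4, 32, 35]), (1, [6, 34, 31, 4, 32, 35, 15]), (-1, [6, 34, 31, 5, 32]), (-1, [6, 34, 31, 6, 32]),
  (-1, [6, 34, 31, 7, 32]), (-1, [6, 34, 31, 8, 32]), (-1, [6, 34, 31, 9, 32]), (1, [12, 34, 31, 1, 32]),
  (1, [12, 34, 31, 1, 32, 35]), (1, [12, 34, 31, 2, 32]), (1, [12, 34, 31, 2, 32, 35]), (1, [12, 34, 31, 3, 32]),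
  (1, [12, 34, 31, 3, 32, 35]), (1, [12, 34, 31, 4, 32]), (1, [12, 34, 31, 4, 32, 35]), (1, [12, 34, 31, 5, 32]),
  (1, [12, 34, 31, 5, 32, 35]), (1, [12, 34, 31, 6, 32]), (1, [12, 34, 31, 6, 32, 35]), (1, [12, 34, 31, 7, 32]),
  (1, [12, 34, 31, 7, 32, 35]), (1, [12, 34, 31, 8, 32]), (1, [12, 34, 31, 8, 32, 35]), (1, [12, 34, 31, 9, 32]),
  (1, [12, 34, 31, 9, 32, 35]), (-1, [18, 34, 31, 1, 32, 35, 15]), (-1, [18, 34, 31, 1, 32, 36]),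
  (-1, [18, 34, 31, 2, 32, 35, 15]), (-1, [18, 34, 31, 2, 32, 36]), (-1, [18, 34, 31, 3, 32, 35, 15]),
  (-1, [18, 34, 31, 3, 32, 36]), (-1, [18, 34, 31, 4, 32, 35, 15]), (-1, [18, 34, 31, 4, 32, 36]),
  (-1, [18, 34, 31, 5, 32, 35, 15]), (-1, [18, 34, 31, 5, 32, 36, 15]), (-1, [18, 34, 31, 6, 32, 35]),
  (-1, [18, 34, 31, 6, 32, 36]), (-1, [18, 34, 31, 7, 32, 35]), (-1, [18, 34, 31, 7, 32, 36]),
  (-1, [18, 34, 31, 8, 32, 35]), (-1, [18, 34, 31, 8, 32, 36]), (-1, [18, 34, 31, 9, 32, 35]),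
  (-1, [18, 34, 31, 9, 32, 36]), (-1, [24, 34, 31, 1, 32, 36]), (2, [24, 34, 31, 1, 32, 36, 15]),
  (-1, [24, 34, 31, 2, 32, 36]), (2, [24, 34, 31, 2, 32, 36, 15]), (-1, [24, 34, 31, 3, 32, 36]),
  (2, [24, 34, 31, 3, 32, 36, 15]), (-1, [24, 34, 31, 4, 32, 36]), (2, [24, 34, 31, 4, 32, 36, 15]),
  (1, [24, 34, 31, 5, 32, 36, 15]), (2, [24, 34, 31, 6, 32]), (-2, [24, 34, 31, 6, 32, 15]),
  (1, [24, 34, 31, 6, 32, 36]), (2, [24, 34, 31, 7, 32]), (-2, [24, 34, 31, 7, 32, 15]),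
  (1, [24, 34, 31, 7, 32, 36]), (2, [24, 34, 31, 8, 32]), (-2, [24, 34, 31, 8, 32, 15]),
  (1, [24, 34, 31, 8, 32, 36]), (2, [24, 34, 31, 9, 32]), (-2, [24, 34, 31, 9, 32, 15]),
  (1, [24, 34, 31, 9, 32, 36]), (1, [34, 31, 12, 34]), (-1, [34, 31, 12, 34, 15]), (-1, [34, 31, 24, 34]),
  (1, [34, 31, 24, 34, 15]), (-1, [34, 31, 25, 34]), (1, [34, 31, 25, 34, 15]), (1, [34, 31, 8, 34]),
  (-1, [34, 31, 8, 34, 15]), (-1, [34, 31, 26, 34]), (1, [34, 31, 26, 34, 15]), (1, [34, 31, 9, 34]),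
  (-1, [34, 31, 9, 34, 15]), (-1, [34, 31, 27, 34]), (1, [34, 31, 27, 34, 15]), (1, [34, 31, 10, 34]),
  (-1, [34, 31, 10, 34, 15]), (1, [34, 31, 11, 34]), (-1, [34, 31, 11, 34, 15]), (-1, [34, 31, 23, 34]),
  (1, [34, 31, 23, 34, 15]), (-1, [6, 34, 31, 12, 34]), (-1, [6, 34, 31, 18, 34]), (1, [6, 34, 31, 18, 34, 15]),
  (-1, [6, 34, 31, 13, 34]), (-1, [6, 34, 31, 19, 34]), (1, [6, 34, 31, 19, 34, 15]), (-1, [6, 34, 31, 8, 34]),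
  (-1, [6, 34, 31, 14, 34]), (-1, [6, 34, 31, 20, 34]), (1, [6, 34, 31, 20, 34, 15]), (-1, [6, 34, 31, 9, 34]),
  (-1, [6, 34, 31, 15, 34]), (-1, [6, 34, 31, 21, 34]), (1, [6, 34, 31, 21, 34, 15]), (-1, [6, 34, 31, 10, 34]),
  (-1, [6, 34, 31, 16, 34]), (-1, [6, 34, 31, 22, 34]), (1, [6, 34, 31, 22, 34, 15]), (-1, [6, 34, 31, 11, 34]),
  (-1, [6, 34, 31, 17, 34]), (1, [12, 34, 31, 12, 34]), (1, [12, 34, 31, 18, 34]), (1, [12, 34, 31, 24, 34]),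
  (1, [12, 34, 31, 13, 34]), (1, [12, 34, 31, 19, 34]), (1, [12, 34, 31, 25, 34]), (1, [12, 34, 31, 8, 34]),
  (1, [12, 34, 31, 14, 34]), (1, [12, 34, 31, 20, 34]), (1, [12, 34, 31, 26, 34]), (1, [12, 34, 31, 9, 34]),
  (1, [12, 34, 31, 15, 34]), (1, [12, 34, 31, 21, 34]), (1, [12, 34, 31, 27, 34]), (1, [12, 34, 31, 10, 34]),
  (1, [12, 34, 31, 16, 34]), (1, [12, 34, 31, 22, 34]), (1, [12, 34, 31, 11, 34]), (1, [12, 34, 31, 17, 34]),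
  (1, [12, 34, 31, 23, 34]), (-1, [18, 34, 31, 34]), (-1, [18, 34, 31, 6, 34]), (-1, [18, 34, 31, 18, 34, 15]),
  (-1, [18, 34, 31, 24, 34]), (-1, [18, 34, 31, 1, 34]), (-1, [18, 34, 31, 7, 34]), (-1, [18, 34, 31, 19, 34, 15]),
  (-1, [18, 34, 31, 25, 34]), (-1, [18, 34, 31, 2, 34]), (-1, [18, 34, 31, 20, 34, 15]), (-1, [18, 34, 31, 26, 34]),
  (-1, [18, 34, 31, 3, 34]), (-1, [18, 34, 31, 21, 34, 15]), (-1, [18, 34, 31, 27, 34]), (-1, [18, 34, 31, 4, 34]),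
  (-1, [18, 34, 31, 22, 34, 15]), (-1, [18, 34, 31, 28, 34]), (-1, [18, 34, 31, 5, 34]), (-1, [18, 34, 31, 23, 34]),
  (-1, [18, 34, 31, 29, 34]), (-1, [24, 34, 31, 34]), (2, [24, 34, 31, 34, 15]), (1, [24, 34, 31, 6, 34]),
  (-1, [24, 34, 31, 1, 34]), (2, [24, 34, 31, 1, 34, 15]), (1, [24, 34, 31, 7, 34]), (2, [24, 34, 31, 13, 34]),
  (-2, [24, 34, 31, 13, 34, 15]), (-1, [24, 34, 31, 2, 34]), (2, [24, 34, 31, 2, 34, 15]),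
  (2, [24, 34, 31, 14, 34]), (-2, [24, 34, 31, 14, 34, 15]), (1, [24, 34, 31, 3, 34]), (2, [24, 34, 31, 15, 34]),
  (-2, [24, 34, 31, 15, 34, 15]), (1, [24, 34, 31, 4, 34]), (2, [24, 34, 31, 16, 34]),
  (-2, [24, 34, 31, 16, 34, 15]), (-1, [24, 34, 31, 28, 34]), (2, [24, 34, 31, 28, 34, 15]),
  (1, [24, 34, 31, 5, 34]), (2, [24, 34, 31, 17, 34]), (-2, [24, 34, 31, 17, 34, 15]), (-1, [24, 34, 31, 29, 34]),
  (2, [24, 34, 31, 29, 34, 15])]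

def p1L : List (ℤ × List ℕ) := [
  (-4, []), (-3, [30]), (-4, [1]), (-1, [1, 30]), (-4, [10]), (-5, [10, 30]), (-4, [11]), (5, [12, 30]), (3, [13]),
  (1, [13, 30]), (-2, [14]), (-2, [14, 30]), (-4, [15]), (-1, [15, 30]), (-3, [18]), (-2, [19]), (5, [2, 30]),
  (-1, [20]), (-1, [21]), (-3, [24]), (-2, [25]), (-1, [26]), (-1, [27]), (4, [3]), (3, [3, 30]), (-4, [4, 30]),
  (-5, [5]), (-4, [5, 30]), (-5, [6]), (1, [6, 30]), (3, [7, 30]), (2, [8]), (2, [8, 30]), (-2, [9, 30])]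

def p2L : List (ℤ × List ℕ) := [
  (-1, []), (-1, [1]), (-1, [10]), (-1, [10, 30]), (-1, [11]), (1, [12, 30]), (1, [13, 30]), (-1, [14]),
  (-1, [14, 30]), (-1, [15, 30]), (-1, [18]), (-1, [20]), (-1, [24]), (-1, [26]), (1, [3]), (1, [3, 30]),
  (-1, [4, 30]), (-1, [5]), (-1, [5, 30]), (-1, [6]), (1, [7, 30])]

def uBL : List (ℤ × List ℕ) := [
  (-1, [15]), (-2, [15, 30]), (2, [35]), (1, [35, 30]), (2, [36]), (1, [36, 30]), (3, [36, 15])]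

def vBL : List (ℤ × List ℕ) := [
  (1, [])]

def uZL : List (ℤ × List ℕ) := [
  (3, []), (5, [15, 30]), (9, [18]), (-8, [21, 30]), (-3, [24]), (-6, [3, 30]), (-6, [6]), (12, [9, 30]),
  (-2, [37]), (-3, [37, 12]), (8, [37, 21, 30]), (-2, [37, 24]), (-3, [37, 27, 30]), (10, [37, 6]),
  (-2, [37, 9, 30]), (-1, [38]), (-2, [38, 12]), (-5, [38, 15, 30]), (1, [38, 18]), (13, [38, 27, 30]),
  (1, [38, 3, 30]), (-4, [38, 6])]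

def vZL : List (ℤ × List ℕ) := [
  (-3, []), (-5, [18]), (4, [37, 24]), (8, [37, 6]), (2, [38, 12])]

/-- scalar multiple of a vector -/
def sm (a : Ex) (v : Rel → Ex) : Rel → Ex := fun r => a * v r
/-- sum of vectors -/
def va (v v' : Rel → Ex) : Rel → Ex := fun r => v r + v' r
/-- difference of vectors -/
def vs (v v' : Rel → Ex) : Rel → Ex := fun r => v r - v' r
/-- basis vector -/
def be (r : Rel) : Rel → Ex := fun r' => if r' = r then 1 else 0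

def S : Ex := .w [30]
def t : Ex := .w [31]
def ti : Ex := .w [32]
def u : Ex := .w [33]
def ui : Ex := .w [34]
def bB : Ex := .w [35]
def bBi : Ex := .w [36]
def bZ : Ex := .w [37]
def bZi : Ex := .w [38]
def ρ (k : ℕ) : Ex := .w [k]
def c : Ex := ρ 15
def a : Ex := ρ 6
def ai : Ex := ρ 24
def sp : Ex := .w [30, 15]
def z : Ex := .w [6, 37]
def zi : Ex := .w [38, 24]
def Es : Rel → Ex := sm ti (va (sm (1 + c) (be .t)) (be .r))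
def ET : Rel → Ex := sm (ρ 7 * ui) (va (sm (1 + c) (be .u)) (be .r))
def EE : Rel → Ex := va Es ET
def K1 : Rel → Ex := vs (be .r) (sm (.geo (ρ 29) 15) EE)
def K2 : Rel → Ex := sm (.geo (ρ 29) 10) EE
def S1 : Rel → Ex := vs (sm (1 + bB + bBi) (be .B)) (sm ((S - 1) * t) (be .r))
def S2 : Rel → Ex := vs (sm (1 + S) (be .B)) (sm (1 - bB) Es)
def n2B : Rel → Ex := va (sm (bBi - 1) (be .t)) (sm t K2)
def S3 : Rel → Ex := vs (vs (sm (c + bBi) (be .B)) (sm (1 - bBi) K1)) (sm (S - 1) n2B)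
def T1 : Rel → Ex := vs (sm (.geo a 5) (be .Z)) (sm (1 - bZ) (be .r))
def T2 : Rel → Ex := vs (sm (1 + bZ + bZi) (be .Z)) (sm ((a - 1) * ui * t) (be .r))
def n1Z : Rel → Ex := sm (ρ 23 * .geo (ρ 29) 6 * S * ρ 1) EE
def n2Z : Rel → Ex := sm ui (va (sm (1 - bBi) (be .u)) n2B)
def T3 : Rel → Ex := vs (vs (sm (sp - bZi * ai) (be .Z)) (sm (1 - bZi) n1Z)) (sm (ai - 1) n2Z)
def sB0 : Rel → Ex := va (vs (sm S S1) (sm bB S2)) (sm ((1 - S * bB) * bBi) S3)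
def sZ0 : Rel → Ex :=
  va (vs (sm (.pow z 3 + .pow z 6) T2) (sm (.pow z 4) T1)) (sm ((z + zi - 1) * .pow zi 7) T3)
/-- the first sphere -/
def xB : Rel → Ex := fun r => match r with | .r => .lit muBL | r => sB0 r
/-- the second sphere -/
def xZ : Rel → Ex := fun r => match r with | .r => .lit muZL | r => sZ0 r
/-- inverse of `z - z⁻¹` modulo `Φ₁₅` -/
def z0 : Ex := .pow z 6 - .pow z 7 - .pow z 2 - .pow z 5

end Crest.Agent.R251.Dat
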